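import Mathlib

/-!
# Row 256 (S0496), unit NM, sub-block TRA: the mixed coefficient trace (Lemma names:mixed-trace, 04-canonical-names.tex l.397-428), ABSTRACT form      (helper231; prefix `nm_mix_`)

PAPER-FREE, Mathlib only.   `H x z` for `z ∈ (z0,z1)`: the `x`-increments lie in `[0, x'-x]` and decrease with `z`.   Graph `x = B0 + c' z`, `c' > 0`.

Proof.   `G y` = infimum of the `x`-derivatives at `y` of `H (., q)` over the rational depths `q` EARLIER than the graph (`B0 + c' q < y`).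
* lower bound `nm_mix_lower`: on the side `B0 + c' z ≤ x ≤ x'` the increment of `H (., z)` is at least `∫ G` (FTC for Lipschitz functions);
* upper bound: the increment at depth `z` is at most the one at an earlier rational depth `q`;
* at a Lebesgue point of `G` which is a differentiability point of every `H (., q)` the two bounds squeeze (`nm_mix_side`);
* the other side of the graph is the same statement for `x + H (-x) (-z)` (`nm_mix_side'`);
* `c' > 0` transfers the null set from `y` to `a`.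
-/

namespace Claimed.Agent.R256

open Filter Topology MeasureTheory Set

/-- difference quotients along two rays at a differentiability point -/
theorem nm_mix_slope {f : ℝ → ℝ} {d y0 : ℝ} (hf : HasDerivAt f d y0) (al1 al2 : ℝ) :
    Tendsto (fun h : ℝ => (f (y0 + al2 * h) - f (y0 + al1 * h)) / h) (𝓝[>] 0) (𝓝 (d * (al2 - al1))) := by
  have key : ∀ al : ℝ, HasDerivAt (fun h : ℝ => f (y0 + al * h)) (d * al) 0 := by
    intro al
    have h1 : HasDerivAt (fun h : ℝ => y0 + al * h) al 0 := by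
      simpa using ((hasDerivAt_id (0:ℝ)).const_mul al).const_add y0
    have h2 : HasDerivAt f d (y0 + al * 0) := by simpa using hf
    exact h2.comp 0 h1
  have h3 := ((key al2).sub (key al1)).tendsto_slope_zero_right
  have h4 : d * al2 - d * al1 = d * (al2 - al1) := by ring
  rw [h4] at h3
  refine h3.congr fun h => ?_
  simp [div_eq_inv_mul]

/-- a function with increments in `[0, x' - x]` is monotone and `1`-Lipschitz -/
theorem nm_mix_reg {f : ℝ → ℝ} (hf : ∀ x x', x ≤ x' → 0 ≤ f x' - f x ∧ f x' - f x ≤ x' - x) :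
    Monotone f ∧ LipschitzWith 1 f := by
  refine ⟨fun x x' h => by linarith [(hf x x' h).1], LipschitzWith.of_le_add fun x y => ?_⟩
  rcases le_total x y with h | h
  · have := (hf x y h).1
    have := dist_nonneg (x := x) (y := y)
    linarith
  · have := (hf y x h).2
    rw [Real.dist_eq, abs_of_nonneg (by linarith)]
    linarith

/-- the derivative lies in `[0,1]` -/
theorem nm_mix_deriv_mem {f : ℝ → ℝ} (hf : ∀ x x', x ≤ x' → 0 ≤ f x' - f x ∧ f x' - f x ≤ x' - x) (y : ℝ) :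
    0 ≤ deriv f y ∧ deriv f y ≤ 1 := by
  obtain ⟨hm, hl⟩ := nm_mix_reg hf
  refine ⟨hm.deriv_nonneg, ?_⟩
  have := norm_deriv_le_of_lipschitz (x₀ := y) hl
  simpa using (le_abs_self _).trans this

/-- FTC -/
theorem nm_mix_ftc {f : ℝ → ℝ} (hf : ∀ x x', x ≤ x' → 0 ≤ f x' - f x ∧ f x' - f x ≤ x' - x) (x x' : ℝ) :
    IntervalIntegrable (deriv f) volume x x' ∧ ∫ y in x..x', deriv f y = f x' - f x := by
  obtain ⟨-, hl⟩ := nm_mix_reg hf
  have hac : AbsolutelyContinuousOnInterval f x x' := (hl.lipschitzOnWith (s := uIcc x x')).absolutelyContinuousOnInterval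
  exact ⟨hac.intervalIntegrable_deriv, hac.integral_deriv_eq_sub⟩

/-- the monotone envelope of the derivatives at the rational depths earlier than the graph -/
theorem nm_mix_env (H : ℝ → ℝ → ℝ) (z0 z1 B0 c' : ℝ)
    (h1 : ∀ z ∈ Set.Ioo z0 z1, ∀ x x', x ≤ x' → 0 ≤ H x' z - H x z ∧ H x' z - H x z ≤ x' - x) :
    ∃ G : ℝ → ℝ, Measurable G ∧ (∀ y, 0 ≤ G y ∧ G y ≤ 1) ∧
      (∀ q : ℚ, z0 < q → (q:ℝ) < z1 → ∀ y, B0 + c' * q < y → G y ≤ deriv (fun x => H x q) y) ∧
      (∀ y, ∀ ε > 0, (∃ q : ℚ, z0 < q ∧ (q:ℝ) < z1 ∧ B0 + c' * q < y) →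
        ∃ q : ℚ, z0 < q ∧ (q:ℝ) < z1 ∧ B0 + c' * q < y ∧ deriv (fun x => H x q) y < G y + ε) := by
  classical
  obtain ⟨T, hT⟩ : ∃ T : ℚ → ℝ → ℝ, T = fun (q : ℚ) (y : ℝ) =>
      if B0 + c' * (q:ℝ) < y then (if z0 < (q:ℝ) ∧ (q:ℝ) < z1 then deriv (fun x => H x (q:ℝ)) y else 1) else 1 := ⟨_, rfl⟩
  have hT01 : ∀ q y, 0 ≤ T q y ∧ T q y ≤ 1 := by
    intro q y
    rw [hT]
    dsimp only
    split_ifs with ha hb
    · exact nm_mix_deriv_mem (h1 q ⟨hb.1, hb.2⟩) y
    · norm_num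
    · norm_num
  have hTm : ∀ q, Measurable (T q) := by
    intro q
    rw [hT]
    dsimp only
    refine Measurable.ite (measurableSet_lt measurable_const measurable_id) ?_ measurable_const
    by_cases hb : z0 < q ∧ (q:ℝ) < z1
    · simp only [hb, and_self, if_true]
      exact measurable_deriv _
    · simp only [hb, if_false]
      exact measurable_const
  have hbdd : ∀ y, BddBelow (range fun q => T q y) := fun y => ⟨0, by rintro _ ⟨q, rfl⟩; exact (hT01 q y).1⟩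
  refine ⟨fun y => ⨅ q, T q y, Measurable.iInf hTm, fun y => ⟨le_ciInf fun q => (hT01 q y).1, (ciInf_le (hbdd y) 0).trans (hT01 0 y).2⟩, ?_, ?_⟩
  · intro q hq0 hq1 y hy
    refine (ciInf_le (hbdd y) q).trans (le_of_eq ?_)
    rw [hT]
    simp [hy, hq0, hq1]
  · rintro y ε hε ⟨q', hq0', hq1', hy'⟩
    obtain ⟨q, hq⟩ := exists_lt_of_ciInf_lt (show (⨅ q, T q y) < (⨅ q, T q y) + ε by linarith)
    by_cases hcond : B0 + c' * q < y ∧ z0 < q ∧ (q:ℝ) < z1
    · refine ⟨q, hcond.2.1, hcond.2.2, hcond.1, ?_⟩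
      have : T q y = deriv (fun x => H x q) y := by
        rw [hT]
        simp [hcond.1, hcond.2.1, hcond.2.2]
      rwa [this] at hq
    · have : T q y = 1 := by
        rw [hT]
        dsimp only
        split_ifs with ha hb
        · exact absurd ⟨ha, hb⟩ hcond
        · rfl
        · rfl
      rw [this] at hq
      exact ⟨q', hq0', hq1', hy', lt_of_le_of_lt (nm_mix_deriv_mem (h1 q' ⟨hq0', hq1'⟩) y).2 hq⟩

/-- a bounded measurable function is locally integrable -/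
theorem nm_mix_locint {G : ℝ → ℝ} (hGm : Measurable G) (hG01 : ∀ y, 0 ≤ G y ∧ G y ≤ 1) :
    LocallyIntegrable G volume ∧ ∀ x x', IntervalIntegrable G volume x x' := by
  have hl : LocallyIntegrable G volume := by
    refine (locallyIntegrable_const (1:ℝ)).mono hGm.aestronglyMeasurable (ae_of_all _ fun y => ?_)
    rw [Real.norm_eq_abs, abs_of_nonneg (hG01 y).1]
    simpa using (hG01 y).2
  exact ⟨hl, fun x x' => intervalIntegrable_iff.mpr ((hl.integrableOn_isCompact isCompact_uIcc).mono_set uIoc_subset_uIcc)⟩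

/-- null sets are transferred by a nonconstant affine map -/
theorem nm_mix_ae_affine {P : ℝ → Prop} (B0 c' : ℝ) (hc : c' ≠ 0) (h : ∀ᵐ y : ℝ, P y) : ∀ᵐ a : ℝ, P (B0 + c' * a) := by
  rw [ae_iff] at h ⊢
  have : {a : ℝ | ¬ P (B0 + c' * a)} = (fun a => c' * a) ⁻¹' ((fun y => B0 + y) ⁻¹' {y | ¬ P y}) := rfl
  rw [this, Real.volume_preimage_mul_left hc, measure_preimage_add, h, mul_zero]

/-- all the rational depths are differentiable almost everywhere -/
theorem nm_mix_ae_diff (H : ℝ → ℝ → ℝ) (z0 z1 : ℝ)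
    (h1 : ∀ z ∈ Set.Ioo z0 z1, ∀ x x', x ≤ x' → 0 ≤ H x' z - H x z ∧ H x' z - H x z ≤ x' - x) :
    ∀ᵐ y : ℝ, ∀ q : ℚ, z0 < q → (q:ℝ) < z1 → DifferentiableAt ℝ (fun x => H x q) y := by
  rw [ae_all_iff]
  intro q
  by_cases hq : z0 < q ∧ (q:ℝ) < z1
  · filter_upwards [(nm_mix_reg (h1 q ⟨hq.1, hq.2⟩)).1.ae_differentiableAt] with y hy _ _ using hy
  · exact ae_of_all _ fun y ha hb => absurd ⟨ha, hb⟩ hq

/-- lower bound on the side of the graph seen from earlier depths -/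
theorem nm_mix_lower (H : ℝ → ℝ → ℝ) (z0 z1 B0 c' : ℝ) (hc : 0 < c')
    (h1 : ∀ z ∈ Set.Ioo z0 z1, ∀ x x', x ≤ x' → 0 ≤ H x' z - H x z ∧ H x' z - H x z ≤ x' - x)
    (h2 : ∀ z ∈ Set.Ioo z0 z1, ∀ z' ∈ Set.Ioo z0 z1, ∀ x x', z ≤ z' → x ≤ x' → H x' z' - H x z' ≤ H x' z - H x z)
    (G : ℝ → ℝ) (hGm : Measurable G) (hG01 : ∀ y, 0 ≤ G y ∧ G y ≤ 1)
    (hG : ∀ q : ℚ, z0 < q → (q:ℝ) < z1 → ∀ y, B0 + c' * q < y → G y ≤ deriv (fun x => H x q) y)
    (z : ℝ) (hz : z ∈ Ioo z0 z1) (x x' : ℝ) (hx : B0 + c' * z ≤ x) (hxx : x ≤ x') :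
    ∫ y in x..x', G y ≤ H x' z - H x z := by
  obtain ⟨hint, hftc⟩ := nm_mix_ftc (h1 z hz) x x'
  rw [← hftc]
  refine intervalIntegral.integral_mono_ae_restrict hxx ((nm_mix_locint hGm hG01).2 x x') hint ?_
  have hd : ∀ᵐ y : ℝ, DifferentiableAt ℝ (fun x => H x z) y := (nm_mix_reg (h1 z hz)).1.ae_differentiableAt
  have hne : ∀ᵐ y : ℝ, y ≠ x := by simp [ae_iff, measure_singleton]
  rw [Filter.EventuallyLE, ae_restrict_iff' measurableSet_Icc]
  filter_upwards [hd, nm_mix_ae_diff H z0 z1 h1, hne] with y hy hyq hyne hmem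
  have hxy : x < y := lt_of_le_of_ne hmem.1 (Ne.symm hyne)
  have hzy : z < (y - B0) / c' := by
    rw [lt_div_iff₀ hc]
    nlinarith
  obtain ⟨q, hq1, hq2⟩ := exists_rat_btwn (lt_min hz.2 hzy)
  have hqz1 : (q:ℝ) < z1 := hq2.trans_le (min_le_left _ _)
  have hqz0 : z0 < (q:ℝ) := hz.1.trans hq1
  have hqy : B0 + c' * q < y := by
    have := hq2.trans_le (min_le_right _ _)
    rw [lt_div_iff₀ hc] at this
    nlinarith
  refine (hG q hqz0 hqz1 y hqy).trans ?_
  have hmono : Monotone (fun x => H x z - H x q) := by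
    intro u u' huu
    have := h2 z hz q ⟨hqz0, hqz1⟩ u u' hq1.le huu
    dsimp only
    linarith
  have := (hy.hasDerivAt.sub (hyq q hqz0 hqz1).hasDerivAt).nonneg_of_monotone hmono
  linarith

/-- the depth `a + be h` stays in a neighbourhood of `a` -/
theorem nm_mix_ev {u v a : ℝ} (ha : a ∈ Ioo u v) (be : ℝ) : ∀ᶠ h : ℝ in 𝓝[>] 0, a + be * h ∈ Ioo u v := by
  have h0 : Tendsto (fun h : ℝ => a + be * h) (𝓝 0) (𝓝 (a + be * 0)) := by
    have : Continuous (fun h : ℝ => a + be * h) := by fun_prop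
    exact this.tendsto 0
  rw [mul_zero, add_zero] at h0
  exact (h0.mono_left nhdsWithin_le_nhds).eventually (Ioo_mem_nhds ha.1 ha.2)

/-- **one side of the graph** (the side seen from earlier depths) -/
theorem nm_mix_side (H : ℝ → ℝ → ℝ) (z0 z1 B0 c' : ℝ) (hc : 0 < c')
    (h1 : ∀ z ∈ Set.Ioo z0 z1, ∀ x x', x ≤ x' → 0 ≤ H x' z - H x z ∧ H x' z - H x z ≤ x' - x)
    (h2 : ∀ z ∈ Set.Ioo z0 z1, ∀ z' ∈ Set.Ioo z0 z1, ∀ x x', z ≤ z' → x ≤ x' → H x' z' - H x z' ≤ H x' z - H x z) :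
    ∀ᵐ a : ℝ, a ∈ Set.Ioo z0 z1 → ∃ L : ℝ,
      (∀ ε > 0, ∃ q ∈ Set.Ioo z0 a, ∃ d, HasDerivAt (fun x => H x q) d (B0 + c' * a) ∧ d ≤ L + ε) ∧
      ∀ al1 al2 be : ℝ, c' * be ≤ al1 → al1 ≤ al2 →
        Tendsto (fun h : ℝ => (H (B0 + c' * a + al2 * h) (a + be * h) - H (B0 + c' * a + al1 * h) (a + be * h)) / h) (𝓝[>] 0)
          (𝓝 (L * (al2 - al1))) := by
  obtain ⟨G, hGm, hG01, hG, hGe⟩ := nm_mix_env H z0 z1 B0 c' h1
  obtain ⟨hloc, hii⟩ := nm_mix_locint hGm hG01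
  have hE : ∀ᵐ y : ℝ, (∀ q : ℚ, z0 < q → (q:ℝ) < z1 → DifferentiableAt ℝ (fun x => H x q) y) ∧
      HasDerivAt (fun x => ∫ t in (0:ℝ)..x, G t) (G y) y := by
    filter_upwards [nm_mix_ae_diff H z0 z1 h1, LocallyIntegrable.ae_hasDerivAt_integral hloc] with y hy1 hy2 using ⟨hy1, hy2 0⟩
  filter_upwards [nm_mix_ae_affine B0 c' hc.ne' hE] with a hEa ha
  obtain ⟨hdq, hF⟩ := hEa
  have hi : ∀ ε > 0, ∃ q ∈ Set.Ioo z0 a, ∃ d, HasDerivAt (fun x => H x q) d (B0 + c' * a) ∧ d ≤ G (B0 + c' * a) + ε := by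
    intro ε hε
    obtain ⟨q', hq0', hqa'⟩ := exists_rat_btwn ha.1
    obtain ⟨q, hq0, hq1, hqy, hqd⟩ := hGe (B0 + c' * a) ε hε ⟨q', hq0', hqa'.trans ha.2, by nlinarith⟩
    have hqa : (q:ℝ) < a := by
      by_contra hcon
      push Not at hcon
      nlinarith
    exact ⟨q, ⟨hq0, hqa⟩, _, (hdq q hq0 hq1).hasDerivAt, hqd.le⟩
  refine ⟨G (B0 + c' * a), hi, ?_⟩
  intro al1 al2 be hbe hal
  refine tendsto_order.2 ⟨fun l hl => ?_, fun u hu => ?_⟩
  · have hs := nm_mix_slope hF al1 al2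
    filter_upwards [hs.eventually (lt_mem_nhds hl), nm_mix_ev ha be, self_mem_nhdsWithin] with h hh hz hpos
    have hpos' : (0:ℝ) < h := hpos
    refine hh.trans_le ?_
    refine div_le_div_of_nonneg_right ?_ hpos'.le
    rw [intervalIntegral.integral_interval_sub_left (hii _ _) (hii _ _)]
    refine nm_mix_lower H z0 z1 B0 c' hc h1 h2 G hGm hG01 hG _ hz _ _ ?_ ?_
    · nlinarith
    · nlinarith
  · obtain ⟨ε, hε, hεu⟩ : ∃ ε > 0, (G (B0 + c' * a) + ε) * (al2 - al1) < u := by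
      refine ⟨(u - G (B0 + c' * a) * (al2 - al1)) / (2 * (al2 - al1 + 1)), by
        apply div_pos <;> linarith, ?_⟩
      have hpos : 0 < u - G (B0 + c' * a) * (al2 - al1) := by linarith
      have h3 : (u - G (B0 + c' * a) * (al2 - al1)) / (2 * (al2 - al1 + 1)) * (al2 - al1) ≤ (u - G (B0 + c' * a) * (al2 - al1)) / 2 := by
        rw [div_mul_eq_mul_div, div_le_div_iff₀ (by linarith) (by norm_num)]
        nlinarith
      rw [add_mul]
      linarith
    obtain ⟨q, hq, d, hd, hdL⟩ := hi ε hε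
    have hs := nm_mix_slope hd al1 al2
    have hdu : d * (al2 - al1) < u := lt_of_le_of_lt (mul_le_mul_of_nonneg_right hdL (by linarith)) hεu
    filter_upwards [hs.eventually (gt_mem_nhds hdu), nm_mix_ev (u := q) (v := z1) ⟨hq.2, ha.2⟩ be, self_mem_nhdsWithin] with h hh hz hpos
    have hpos' : (0:ℝ) < h := hpos
    refine lt_of_le_of_lt ?_ hh
    refine div_le_div_of_nonneg_right ?_ hpos'.le
    exact h2 q ⟨hq.1, hq.2.trans ha.2⟩ _ ⟨hq.1.trans hz.1, hz.2⟩ _ _ hz.1.le (by nlinarith)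

/-- **the other side of the graph**: `nm_mix_side` for `x + H (-x) (-z)` -/
theorem nm_mix_side' (H : ℝ → ℝ → ℝ) (z0 z1 B0 c' : ℝ) (hc : 0 < c')
    (h1 : ∀ z ∈ Set.Ioo z0 z1, ∀ x x', x ≤ x' → 0 ≤ H x' z - H x z ∧ H x' z - H x z ≤ x' - x)
    (h2 : ∀ z ∈ Set.Ioo z0 z1, ∀ z' ∈ Set.Ioo z0 z1, ∀ x x', z ≤ z' → x ≤ x' → H x' z' - H x z' ≤ H x' z - H x z) :
    ∀ᵐ a : ℝ, a ∈ Set.Ioo z0 z1 → ∃ L : ℝ,
      (∀ ε > 0, ∃ q ∈ Set.Ioo a z1, ∃ d, HasDerivAt (fun x => H x q) d (B0 + c' * a) ∧ L - ε ≤ d) ∧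
      ∀ al1 al2 be : ℝ, al2 ≤ c' * be → al1 ≤ al2 →
        Tendsto (fun h : ℝ => (H (B0 + c' * a + al2 * h) (a + be * h) - H (B0 + c' * a + al1 * h) (a + be * h)) / h) (𝓝[>] 0)
          (𝓝 (L * (al2 - al1))) := by
  have hneg : ∀ {z : ℝ}, z ∈ Ioo (-z1) (-z0) → -z ∈ Ioo z0 z1 := fun hz => ⟨by linarith [hz.2], by linarith [hz.1]⟩
  have key := nm_mix_side (fun x z => x + H (-x) (-z)) (-z1) (-z0) (-B0) c' hc
    (fun z hz x x' hxx => by
      have := h1 (-z) (hneg hz) (-x') (-x) (by linarith)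
      constructor <;> linarith [this.1, this.2])
    (fun z hz z' hz' x x' hzz hxx => by
      have := h2 (-z') (hneg hz') (-z) (hneg hz) (-x') (-x) (by linarith) (by linarith)
      linarith)
  have key2 := nm_mix_ae_affine 0 (-1) (by norm_num) key
  filter_upwards [key2] with a hka ha
  have e0 : (0:ℝ) + -1 * a = -a := by ring
  rw [e0] at hka
  obtain ⟨L', hi, ht⟩ := hka ⟨by linarith [ha.2], by linarith [ha.1]⟩
  refine ⟨1 - L', ?_, ?_⟩
  · intro ε hε
    obtain ⟨q', hq', d', hd', hdL⟩ := hi ε hε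
    refine ⟨-q', ⟨by linarith [hq'.2], by linarith [hq'.1]⟩, 1 - d', ?_, by linarith⟩
    have hn : HasDerivAt (fun x : ℝ => -x) (-1) (B0 + c' * a) := (hasDerivAt_id _).neg
    have e1 : -B0 + c' * -a = -(B0 + c' * a) := by ring
    rw [e1] at hd'
    have hcomp := (hd'.comp (B0 + c' * a) hn).add (hasDerivAt_id (B0 + c' * a))
    have e2 : d' * -1 + 1 = 1 - d' := by ring
    rw [e2] at hcomp
    refine hcomp.congr_of_eventuallyEq (Eventually.of_forall fun x => ?_)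
    simp
  · intro al1 al2 be hbe hal
    have h3 := ht (-al2) (-al1) (-be) (by linarith) (by linarith)
    have h4 := (tendsto_const_nhds (x := al2 - al1) (f := 𝓝[>] (0:ℝ))).sub h3
    have e3 : al2 - al1 - L' * (-al1 - -al2) = (1 - L') * (al2 - al1) := by ring
    rw [e3] at h4
    refine h4.congr' ?_
    filter_upwards [self_mem_nhdsWithin] with h hpos
    have hpos' : (0:ℝ) < h := hpos
    have e4 : -(-B0 + c' * -a + -al1 * h) = B0 + c' * a + al1 * h := by ring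
    have e5 : -(-B0 + c' * -a + -al2 * h) = B0 + c' * a + al2 * h := by ring
    have e6 : -(-a + -be * h) = a + be * h := by ring
    rw [e4, e5, e6]
    field_simp
    ring

/-- **Y4** mixed trace, abstract, with the two traces written out (`nmNu`, `nmNuL` of `Nm/Contract.lean`) -/
theorem nm_mix_main (H : ℝ → ℝ → ℝ) (z0 z1 B0 c' : ℝ) (hc : 0 < c')
    (h1 : ∀ z ∈ Set.Ioo z0 z1, ∀ x x', x ≤ x' → 0 ≤ H x' z - H x z ∧ H x' z - H x z ≤ x' - x)
    (h2 : ∀ z ∈ Set.Ioo z0 z1, ∀ z' ∈ Set.Ioo z0 z1, ∀ x x', z ≤ z' → x ≤ x' → H x' z' - H x z' ≤ H x' z - H x z) :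
    ∀ᵐ a : ℝ, a ∈ Set.Ioo z0 z1 →
      0 ≤ limsup (fun h : ℝ => (H (B0 + c' * a) a - H (B0 + c' * a - h) a) / h) (𝓝[>] 0) ∧
      limsup (fun h : ℝ => (H (B0 + c' * a) a - H (B0 + c' * a - h) a) / h) (𝓝[>] 0)
        ≤ limsup (fun h : ℝ => (H (B0 + c' * a + h) a - H (B0 + c' * a) a) / h) (𝓝[>] 0) ∧
      limsup (fun h : ℝ => (H (B0 + c' * a + h) a - H (B0 + c' * a) a) / h) (𝓝[>] 0) ≤ 1 ∧
      ∀ al1 al2 be : ℝ, al1 ≤ al2 →
        Tendsto (fun h : ℝ => (H (B0 + c' * a + al2 * h) (a + be * h) - H (B0 + c' * a + al1 * h) (a + be * h)) / h) (𝓝[>] 0)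
          (𝓝 (limsup (fun h : ℝ => (H (B0 + c' * a) a - H (B0 + c' * a - h) a) / h) (𝓝[>] 0) * (min al2 (c' * be) - min al1 (c' * be))
            + limsup (fun h : ℝ => (H (B0 + c' * a + h) a - H (B0 + c' * a) a) / h) (𝓝[>] 0) * (max al2 (c' * be) - max al1 (c' * be)))) := by
  filter_upwards [nm_mix_side H z0 z1 B0 c' hc h1 h2, nm_mix_side' H z0 z1 B0 c' hc h1 h2] with a hp hm ha
  obtain ⟨Lp, -, htp⟩ := hp ha
  obtain ⟨Lm, him, htm⟩ := hm ha
  have tp : Tendsto (fun h : ℝ => (H (B0 + c' * a + h) a - H (B0 + c' * a) a) / h) (𝓝[>] 0) (𝓝 Lp) := by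
    have := htp 0 1 0 (by simp) (by norm_num)
    simpa using this
  have tm : Tendsto (fun h : ℝ => (H (B0 + c' * a) a - H (B0 + c' * a - h) a) / h) (𝓝[>] 0) (𝓝 Lm) := by
    have := htm (-1) 0 0 (by simp) (by norm_num)
    simpa [sub_eq_add_neg] using this
  rw [tp.limsup_eq, tm.limsup_eq]
  refine ⟨?_, ?_, ?_, ?_⟩
  · refine ge_of_tendsto tm ?_
    filter_upwards [self_mem_nhdsWithin] with h hpos
    have hpos' : (0:ℝ) < h := hpos
    exact div_nonneg (h1 a ha _ _ (by linarith)).1 hpos'.le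
  · refine le_of_forall_pos_le_add fun ε hε => ?_
    obtain ⟨q, hq, d, hd, hdL⟩ := him ε hε
    have hs := nm_mix_slope hd 0 1
    have hdLp : d * (1 - 0) ≤ Lp := by
      refine le_of_tendsto_of_tendsto hs tp ?_
      filter_upwards [self_mem_nhdsWithin] with h hpos
      have hpos' : (0:ℝ) < h := hpos
      refine div_le_div_of_nonneg_right ?_ hpos'.le
      have := h2 a ha q ⟨ha.1.trans hq.1, hq.2⟩ (B0 + c' * a) (B0 + c' * a + h) hq.1.le (by linarith)
      simpa using this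
    linarith
  · refine le_of_tendsto tp ?_
    filter_upwards [self_mem_nhdsWithin] with h hpos
    have hpos' : (0:ℝ) < h := hpos
    rw [div_le_one hpos']
    have := (h1 a ha (B0 + c' * a) (B0 + c' * a + h) (by linarith)).2
    linarith
  · intro al1 al2 be hal
    have t1 := htm (min al1 (c' * be)) (min al2 (c' * be)) be (min_le_right _ _) (min_le_min_right _ hal)
    have t2 := htp (max al1 (c' * be)) (max al2 (c' * be)) be (le_max_right _ _) (max_le_max_right _ hal)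
    refine (t1.add t2).congr fun h => ?_
    rw [← add_div]
    congr 1
    rcases le_total al2 (c' * be) with hA | hA
    · rw [min_eq_left hA, min_eq_left (hal.trans hA), max_eq_right hA, max_eq_right (hal.trans hA)]
      ring
    · rcases le_total al1 (c' * be) with hB | hB
      · rw [min_eq_right hA, min_eq_left hB, max_eq_left hA, max_eq_right hB]
        ring
      · rw [min_eq_right hA, min_eq_right hB, max_eq_left hA, max_eq_left hB]
        ring

end Claimed.Agent.R256
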