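import Mathlib

/-!
# Row 256 (S0496), unit NM, sub-block TRA: measurability of the upper mixed trace (Y4), ABSTRACT form      (helper231; prefix `nm_meas_`)

PAPER-FREE, Mathlib only.   `K a h = H (B a + h) a`: increments in `h` lie in `[0, h' - h]`, every `K (.) h` is measurable.   Then `a ↦ limsup_{h ↓ 0} (K a h - K a 0) / h` is measurable with values in `[0,1]`:
the quotient is continuous in `h > 0`, so the `limsup` along `𝓝[>] 0` equals the `limsup` along the rational points (`nm_meas_rat`), a filter with a countable basis of countable sets.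
`nm_meas_lip` : `H` Lipschitz in `z`, `B` continuous (`nm_tr_meas`).   `nm_meas_anti` : `H` antitone in `z`, `B` measurable (`ac_nu_meas`).
-/

namespace Claimed.Agent.R256

open Filter Topology MeasureTheory Set

/-- the `limsup` along `𝓝[>] 0` of a function continuous on `h > 0` is the `limsup` along the rational points -/
theorem nm_meas_rat {f : ℝ → ℝ} (hf : ContinuousOn f (Ioi 0)) :
    limsup f (𝓝[>] 0) = limsup (fun r : ℚ => f r) (comap ((↑) : ℚ → ℝ) (𝓝[>] 0)) := by
  have key : ∀ c : ℝ, (∀ᶠ h in 𝓝[>] (0:ℝ), f h ≤ c) ↔ ∀ᶠ r : ℚ in comap ((↑) : ℚ → ℝ) (𝓝[>] 0), f r ≤ c := by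
    intro c
    constructor
    · intro h
      exact tendsto_comap.eventually h
    · intro h
      rw [eventually_comap] at h
      obtain ⟨δ, hδ, hsub⟩ := (mem_nhdsGT_iff_exists_Ioo_subset).1 h
      have hδ' : (0:ℝ) < δ := hδ
      filter_upwards [Ioo_mem_nhdsGT hδ'] with x hx
      by_contra hcon
      push Not at hcon
      have hnh : {y | c < f y} ∩ Ioo 0 δ ∈ 𝓝 x := by
        have hcx : ContinuousAt f x := hf.continuousAt (Ioi_mem_nhds hx.1)
        exact inter_mem (hcx.eventually (lt_mem_nhds hcon)) (Ioo_mem_nhds hx.1 hx.2)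
      obtain ⟨l, u, hlu, hsub2⟩ := mem_nhds_iff_exists_Ioo_subset.1 hnh
      obtain ⟨r, hr1, hr2⟩ := exists_rat_btwn (hlu.1.trans hlu.2)
      have hr := hsub2 ⟨hr1, hr2⟩
      have := hsub hr.2 r rfl
      exact absurd hr.1 (not_lt.2 this)
  simp only [limsup, limsSup, eventually_map]
  congr 1
  ext c
  exact key c

/-- **core**: measurability and bounds of the upper trace -/
theorem nm_meas_core (K : ℝ → ℝ → ℝ)
    (hK1 : ∀ a h h', h ≤ h' → 0 ≤ K a h' - K a h ∧ K a h' - K a h ≤ h' - h)
    (hKm : ∀ h, Measurable fun a => K a h) :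
    Measurable (fun a => limsup (fun h : ℝ => (K a h - K a 0) / h) (𝓝[>] 0)) ∧
      ∀ a, 0 ≤ limsup (fun h : ℝ => (K a h - K a 0) / h) (𝓝[>] 0) ∧ limsup (fun h : ℝ => (K a h - K a 0) / h) (𝓝[>] 0) ≤ 1 := by
  have hq : ∀ a, ∀ᶠ h in 𝓝[>] (0:ℝ), 0 ≤ (K a h - K a 0) / h ∧ (K a h - K a 0) / h ≤ 1 := by
    intro a
    filter_upwards [self_mem_nhdsWithin] with h hpos
    have hpos' : (0:ℝ) < h := hpos
    have := hK1 a 0 h hpos'.le
    refine ⟨div_nonneg this.1 hpos'.le, ?_⟩
    rw [div_le_one hpos']
    linarith [this.2]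
  have hba : ∀ a, IsBoundedUnder (· ≤ ·) (𝓝[>] (0:ℝ)) (fun h : ℝ => (K a h - K a 0) / h) :=
    fun a => ⟨1, by rw [eventually_map]; exact (hq a).mono fun h hh => hh.2⟩
  have hbb : ∀ a, IsBoundedUnder (· ≥ ·) (𝓝[>] (0:ℝ)) (fun h : ℝ => (K a h - K a 0) / h) :=
    fun a => ⟨0, by rw [eventually_map]; exact (hq a).mono fun h hh => hh.1⟩
  refine ⟨?_, fun a => ⟨?_, ?_⟩⟩
  · have hcont : ∀ a, ContinuousOn (fun h : ℝ => (K a h - K a 0) / h) (Ioi 0) := by
      intro a
      have hl : LipschitzWith 1 (K a) := by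
        refine LipschitzWith.of_le_add fun x y => ?_
        rcases le_total x y with h | h
        · have := (hK1 a x y h).1
          have := dist_nonneg (x := x) (y := y)
          linarith
        · have := (hK1 a y x h).2
          rw [Real.dist_eq, abs_of_nonneg (by linarith)]
          linarith
      refine ContinuousOn.div (hl.continuous.continuousOn.sub continuousOn_const) continuousOn_id fun h hh => ?_
      exact (ne_of_gt hh)
    have heq : (fun a => limsup (fun h : ℝ => (K a h - K a 0) / h) (𝓝[>] 0))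
        = fun a => limsup (fun r : ℚ => (K a r - K a 0) / r) (comap ((↑) : ℚ → ℝ) (𝓝[>] 0)) :=
      funext fun a => nm_meas_rat (hcont a)
    rw [heq]
    obtain ⟨s, hs⟩ := (comap ((↑) : ℚ → ℝ) (𝓝[>] 0)).exists_antitone_basis
    refine Measurable.limsup' (f := fun (r : ℚ) a => (K a r - K a 0) / r) (fun r => ?_) ⟨hs.toHasBasis, Set.to_countable _⟩ fun i => Set.to_countable _
    exact ((hKm r).sub (hKm 0)).div_const _
  · exact le_limsup_of_frequently_le ((hq a).mono fun h hh => hh.1).frequently (hba a)
  · exact limsup_le_of_le (hbb a).isCoboundedUnder_le ((hq a).mono fun h hh => hh.2)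

/-- `H` Lipschitz in `z`, `B` continuous -/
theorem nm_meas_lip (H : ℝ → ℝ → ℝ) (B : ℝ → ℝ) (hB : Continuous B) (C : ℝ)
    (h1 : ∀ z x x' : ℝ, x ≤ x' → 0 ≤ H x' z - H x z ∧ H x' z - H x z ≤ x' - x) (h3 : ∀ x z z' : ℝ, |H x z - H x z'| ≤ C * |z - z'|) :
    Measurable (fun a => limsup (fun h : ℝ => (H (B a + h) a - H (B a) a) / h) (𝓝[>] 0)) ∧
      ∀ a, 0 ≤ limsup (fun h : ℝ => (H (B a + h) a - H (B a) a) / h) (𝓝[>] 0) ∧ limsup (fun h : ℝ => (H (B a + h) a - H (B a) a) / h) (𝓝[>] 0) ≤ 1 := by
  have hm : Measurable (Function.uncurry H) := by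
    refine measurable_uncurry_of_continuous_of_measurable (fun z => ?_) (fun x => ?_)
    · have hl : LipschitzWith 1 (fun x => H x z) := by
        refine LipschitzWith.of_le_add fun x y => ?_
        rcases le_total x y with h | h
        · have := (h1 z x y h).1
          have := dist_nonneg (x := x) (y := y)
          linarith
        · have := (h1 z y x h).2
          rw [Real.dist_eq, abs_of_nonneg (by linarith)]
          linarith
      exact hl.continuous
    · have hl : LipschitzWith (Real.toNNReal C) (H x) := by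
        refine LipschitzWith.of_dist_le_mul fun z z' => ?_
        rw [Real.dist_eq, Real.dist_eq]
        refine (h3 x z z').trans (mul_le_mul_of_nonneg_right ?_ (abs_nonneg _))
        exact Real.le_coe_toNNReal C
      exact hl.continuous.measurable
  have := nm_meas_core (fun a h => H (B a + h) a) (fun a h h' hh => by
      have := h1 a (B a + h) (B a + h') (by linarith)
      exact ⟨this.1, by linarith [this.2]⟩)
    (fun h => hm.comp ((hB.measurable.add_const h).prodMk measurable_id))
  simpa using this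

/-- `H` antitone in `z`, `B` measurable -/
theorem nm_meas_anti (H : ℝ → ℝ → ℝ) (B : ℝ → ℝ) (hB : Measurable B)
    (h1 : ∀ z x x' : ℝ, x ≤ x' → 0 ≤ H x' z - H x z ∧ H x' z - H x z ≤ x' - x) (h2 : ∀ x z z' : ℝ, z ≤ z' → H x z' ≤ H x z) :
    Measurable (fun a => limsup (fun h : ℝ => (H (B a + h) a - H (B a) a) / h) (𝓝[>] 0)) ∧
      ∀ a, 0 ≤ limsup (fun h : ℝ => (H (B a + h) a - H (B a) a) / h) (𝓝[>] 0) ∧ limsup (fun h : ℝ => (H (B a + h) a - H (B a) a) / h) (𝓝[>] 0) ≤ 1 := by
  have hm : Measurable (Function.uncurry H) := by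
    refine measurable_uncurry_of_continuous_of_measurable (fun z => ?_) (fun x => ?_)
    · have hl : LipschitzWith 1 (fun x => H x z) := by
        refine LipschitzWith.of_le_add fun x y => ?_
        rcases le_total x y with h | h
        · have := (h1 z x y h).1
          have := dist_nonneg (x := x) (y := y)
          linarith
        · have := (h1 z y x h).2
          rw [Real.dist_eq, abs_of_nonneg (by linarith)]
          linarith
      exact hl.continuous
    · have ha : Antitone (H x) := fun z z' hz => h2 x z z' hz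
      exact ha.measurable
  have := nm_meas_core (fun a h => H (B a + h) a) (fun a h h' hh => by
      have := h1 a (B a + h) (B a + h') (by linarith)
      exact ⟨this.1, by linarith [this.2]⟩)
    (fun h => hm.comp ((hB.add_const h).prodMk measurable_id))
  simpa using this

end Claimed.Agent.R256
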