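import Claimed.Agent.R256.Nm.Tra.Kit

/-!
# Row 256 (S0496), unit NM, block TRA, Y2 (ang), file 2: THE LIMIT EXISTS ALMOST EVERYWHERE (04 l.360-372, report 848)      (helper91; prefix `nm_ang_`).   Mathlib only, no `sorry`.

`W v x` on `v0 < v ≤ x < v1`: `W v v = 0`, nondecreasing and `1`-Lipschitz in `x`, increments nonincreasing in `v`.   `τ(x) = inf_{r ∈ ℚ, v0 < r < x} ∂_x W(r, x)` (clipped to `[0,1]`).
UPPER: `W v (v+h) ≤ W r (v+h) - W r v` for `r < v`, so `limsup ≤ ∂_x W(r, v)` at the points of differentiability of all `W r`.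
LOWER: `W v (v+h) ≥ ∫_v^{v+h} ∂_x W(v, t) dt ≥ ∫_v^{v+h} τ` (`MonotoneOn.intervalIntegral_deriv_mem_uIcc`), Lebesgue points of `τ` (`LocallyIntegrable.ae_hasDerivAt_integral`).
-/

set_option autoImplicit false

namespace Claimed.Agent.R256

open MeasureTheory Filter Topology
open scoped ENNReal

/-- one-parameter data: `W v x` on `v0 < v ≤ x < v1` -/
structure NmAngH (W : ℝ → ℝ → ℝ) (v0 v1 : ℝ) : Prop where
  z : ∀ v ∈ Set.Ioo v0 v1, W v v = 0
  inc : ∀ v ∈ Set.Ioo v0 v1, ∀ x x', v ≤ x → x ≤ x' → x' < v1 → 0 ≤ W v x' - W v x ∧ W v x' - W v x ≤ x' - x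
  dec : ∀ v ∈ Set.Ioo v0 v1, ∀ v' ∈ Set.Ioo v0 v1, ∀ x x', v ≤ v' → v' ≤ x → x ≤ x' → x' < v1 → W v' x' - W v' x ≤ W v x' - W v x

variable {W : ℝ → ℝ → ℝ} {v0 v1 : ℝ}

theorem nm_ang_diff (H : NmAngH W v0 v1) {r : ℝ} (hr : r ∈ Set.Ioo v0 v1) : ∀ᵐ x : ℝ, x ∈ Set.Ioo r v1 → DifferentiableAt ℝ (W r) x := by
  have hm : MonotoneOn (W r) (Set.Ioo r v1) := by
    intro x hx x' hx' hxx
    have := (H.inc r hr x x' hx.1.le hxx hx'.2).1
    linarith
  filter_upwards [hm.ae_differentiableWithinAt_of_mem] with x hx hxm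
  exact (hx hxm).differentiableAt (Ioo_mem_nhds hxm.1 hxm.2)

/-- right difference quotients -/
theorem nm_ang_slope {f : ℝ → ℝ} {x : ℝ} (h : DifferentiableAt ℝ f x) : Tendsto (fun t : ℝ => (f (x + t) - f x) / t) (𝓝[>] 0) (𝓝 (deriv f x)) := by
  have := h.hasDerivAt.tendsto_slope_zero_right
  refine this.congr fun t => ?_
  rw [smul_eq_mul, div_eq_inv_mul]

theorem nm_ang_ev_lt {x c : ℝ} (h : x < c) : ∀ᶠ t in 𝓝[>] (0 : ℝ), 0 < t ∧ x + t < c := by
  have h1 : ∀ᶠ t in 𝓝[>] (0 : ℝ), t < c - x := (eventually_lt_nhds (by linarith)).filter_mono nhdsWithin_le_nhds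
  filter_upwards [h1, self_mem_nhdsWithin] with t ht hp
  exact ⟨hp, by linarith⟩

theorem nm_ang_deriv_bd (H : NmAngH W v0 v1) {r x : ℝ} (hr : r ∈ Set.Ioo v0 v1) (hx : x ∈ Set.Ioo r v1) (hd : DifferentiableAt ℝ (W r) x) :
    0 ≤ deriv (W r) x ∧ deriv (W r) x ≤ 1 := by
  have ht := nm_ang_slope hd
  constructor
  · refine ge_of_tendsto ht ?_
    filter_upwards [nm_ang_ev_lt hx.2] with t ht
    exact div_nonneg (H.inc r hr x (x + t) hx.1.le (by linarith [ht.1]) ht.2).1 ht.1.le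
  · refine le_of_tendsto ht ?_
    filter_upwards [nm_ang_ev_lt hx.2] with t ht
    rw [div_le_one ht.1]
    have := (H.inc r hr x (x + t) hx.1.le (by linarith [ht.1]) ht.2).2
    linarith

theorem nm_ang_deriv_anti (H : NmAngH W v0 v1) {r r' x : ℝ} (hr : r ∈ Set.Ioo v0 v1) (hrr : r ≤ r') (hx : x ∈ Set.Ioo r' v1)
    (hd : DifferentiableAt ℝ (W r) x) (hd' : DifferentiableAt ℝ (W r') x) : deriv (W r') x ≤ deriv (W r) x := by
  refine le_of_tendsto_of_tendsto (nm_ang_slope hd') (nm_ang_slope hd) ?_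
  filter_upwards [nm_ang_ev_lt hx.2] with t ht
  have hr' : r' ∈ Set.Ioo v0 v1 := ⟨lt_of_lt_of_le hr.1 hrr, hx.1.trans hx.2⟩
  exact div_le_div_of_nonneg_right (H.dec r hr r' hr' x (x + t) hrr hx.1.le (by linarith [ht.1]) ht.2) ht.1.le

/-- the clipped derivatives with rational base points -/
noncomputable def nmAngE (W : ℝ → ℝ → ℝ) (v0 : ℝ) (r : ℚ) (x : ℝ) : ℝ :=
  if v0 < (r : ℝ) ∧ (r : ℝ) < x then max 0 (min 1 (deriv (W r) x)) else 1

/-- `τ(x) = inf_{r < x} ∂_x W(r, x)` -/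
noncomputable def nmAngT (W : ℝ → ℝ → ℝ) (v0 : ℝ) (x : ℝ) : ℝ := ⨅ r : ℚ, nmAngE W v0 r x

theorem nm_ang_E_bd (W : ℝ → ℝ → ℝ) (v0 : ℝ) (r : ℚ) (x : ℝ) : 0 ≤ nmAngE W v0 r x ∧ nmAngE W v0 r x ≤ 1 := by
  unfold nmAngE
  split_ifs
  · exact ⟨le_max_left _ _, max_le zero_le_one (min_le_left _ _)⟩
  · exact ⟨zero_le_one, le_rfl⟩

theorem nm_ang_E_meas (W : ℝ → ℝ → ℝ) (v0 : ℝ) (r : ℚ) : Measurable (nmAngE W v0 r) := by
  unfold nmAngE
  refine Measurable.ite ?_ (measurable_const.max (measurable_const.min (measurable_deriv _))) measurable_const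
  exact (MeasurableSet.const _).inter measurableSet_Ioi

theorem nm_ang_E_bdd (W : ℝ → ℝ → ℝ) (v0 : ℝ) (x : ℝ) : BddBelow (Set.range fun r : ℚ => nmAngE W v0 r x) :=
  ⟨0, by rintro _ ⟨r, rfl⟩; exact (nm_ang_E_bd W v0 r x).1⟩

theorem nm_ang_T_bd (W : ℝ → ℝ → ℝ) (v0 : ℝ) (x : ℝ) : 0 ≤ nmAngT W v0 x ∧ nmAngT W v0 x ≤ 1 :=
  ⟨le_ciInf fun r => (nm_ang_E_bd W v0 r x).1, (ciInf_le (nm_ang_E_bdd W v0 x) 0).trans (nm_ang_E_bd W v0 0 x).2⟩

theorem nm_ang_T_meas (W : ℝ → ℝ → ℝ) (v0 : ℝ) : Measurable (nmAngT W v0) :=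
  Measurable.iInf fun r => nm_ang_E_meas W v0 r

theorem nm_ang_T_li (W : ℝ → ℝ → ℝ) (v0 : ℝ) : LocallyIntegrable (nmAngT W v0) volume := by
  refine (locallyIntegrable_const (1 : ℝ)).mono (nm_ang_T_meas W v0).aestronglyMeasurable (Eventually.of_forall fun x => ?_)
  rw [Real.norm_eq_abs, abs_of_nonneg (nm_ang_T_bd W v0 x).1, norm_one]
  exact (nm_ang_T_bd W v0 x).2

theorem nm_ang_T_ii (W : ℝ → ℝ → ℝ) (v0 x y : ℝ) : IntervalIntegrable (nmAngT W v0) volume x y :=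
  intervalIntegrable_iff.mpr <| (LocallyIntegrable.integrableOn_isCompact (nm_ang_T_li W v0) isCompact_uIcc).mono_set Set.uIoc_subset_uIcc

/-- all rational base points at once -/
theorem nm_ang_diffQ (H : NmAngH W v0 v1) : ∀ᵐ x : ℝ, ∀ r : ℚ, (r : ℝ) ∈ Set.Ioo v0 v1 → x ∈ Set.Ioo (r : ℝ) v1 → DifferentiableAt ℝ (W r) x := by
  rw [ae_all_iff]
  intro r
  by_cases hr : (r : ℝ) ∈ Set.Ioo v0 v1
  · filter_upwards [nm_ang_diff H hr] with x hx _ hxm
    exact hx hxm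
  · exact Eventually.of_forall fun x h => absurd h hr

/-- **lower bound**: `∫_v^{v+h} τ ≤ W v (v + h)` -/
theorem nm_ang_lower (H : NmAngH W v0 v1) {v h : ℝ} (hv : v ∈ Set.Ioo v0 v1) (hh : 0 < h) (hh1 : v + h < v1) :
    ∫ t in v..(v + h), nmAngT W v0 t ≤ W v (v + h) := by
  have hle : v ≤ v + h := by linarith
  have hm : MonotoneOn (W v) (Set.uIcc v (v + h)) := by
    rw [Set.uIcc_of_le hle]
    intro x hx x' hx' hxx
    have := (H.inc v hv x x' hx.1 hxx (lt_of_le_of_lt hx'.2 hh1)).1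
    linarith
  have h1 := hm.intervalIntegral_deriv_mem_uIcc
  have hWn : 0 ≤ W v (v + h) - W v v := (H.inc v hv v (v + h) le_rfl hle hh1).1
  rw [Set.uIcc_of_le hWn, H.z v hv, sub_zero] at h1
  refine le_trans ?_ h1.2
  refine intervalIntegral.integral_mono_ae_restrict hle (nm_ang_T_ii W v0 _ _) hm.intervalIntegrable_deriv ?_
  rw [EventuallyLE, ae_restrict_iff' measurableSet_Icc]
  have hne : ∀ᵐ t : ℝ, t ≠ v := by simp [ae_iff, measure_singleton]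
  filter_upwards [nm_ang_diffQ H, nm_ang_diff H hv, hne] with t hQ hV hne ht
  have hvt : v < t := lt_of_le_of_ne ht.1 (Ne.symm hne)
  have htv1 : t < v1 := lt_of_le_of_lt ht.2 hh1
  obtain ⟨r, hr1, hr2⟩ := exists_rat_btwn hvt
  have hrm : (r : ℝ) ∈ Set.Ioo v0 v1 := ⟨hv.1.trans hr1, hr2.trans htv1⟩
  have hdr := hQ r hrm ⟨hr2, htv1⟩
  have hdv := hV ⟨hvt, htv1⟩
  have b := nm_ang_deriv_bd H hrm ⟨hr2, htv1⟩ hdr
  have e : nmAngE W v0 r t = deriv (W r) t := by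
    unfold nmAngE
    rw [if_pos ⟨hrm.1, hr2⟩, min_eq_right b.2, max_eq_right b.1]
  calc nmAngT W v0 t ≤ nmAngE W v0 r t := ciInf_le (nm_ang_E_bdd W v0 t) r
    _ = deriv (W r) t := e
    _ ≤ deriv (W v) t := nm_ang_deriv_anti H hv hr1.le ⟨hr2, htv1⟩ hdv hdr

/-- **the limit exists almost everywhere** -/
theorem nm_ang_core (H : NmAngH W v0 v1) : ∀ᵐ v : ℝ, v ∈ Set.Ioo v0 v1 → Tendsto (fun h : ℝ => W v (v + h) / h) (𝓝[>] 0) (𝓝 (nmAngT W v0 v)) := by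
  filter_upwards [LocallyIntegrable.ae_hasDerivAt_integral (nm_ang_T_li W v0), nm_ang_diffQ H] with v hL hQ hv
  have hI := (hL v).tendsto_slope_zero_right
  simp only [intervalIntegral.integral_same, sub_zero, smul_eq_mul] at hI
  rw [tendsto_order]
  constructor
  · intro c hc
    filter_upwards [(tendsto_order.1 hI).1 c hc, nm_ang_ev_lt hv.2] with h h1 h2
    refine lt_of_lt_of_le h1 ?_
    rw [← div_eq_inv_mul]
    exact div_le_div_of_nonneg_right (nm_ang_lower H hv h2.1 h2.2) h2.1.le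
  · intro c hc
    obtain ⟨r, hr⟩ := exists_lt_of_ciInf_lt (show ⨅ r : ℚ, nmAngE W v0 r v < c from hc)
    by_cases hrange : v0 < (r : ℝ) ∧ (r : ℝ) < v
    · have hrm : (r : ℝ) ∈ Set.Ioo v0 v1 := ⟨hrange.1, hrange.2.trans hv.2⟩
      have hdr := hQ r hrm ⟨hrange.2, hv.2⟩
      have b := nm_ang_deriv_bd H hrm ⟨hrange.2, hv.2⟩ hdr
      have e : nmAngE W v0 r v = deriv (W r) v := by
        unfold nmAngE
        rw [if_pos hrange, min_eq_right b.2, max_eq_right b.1]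
      rw [e] at hr
      filter_upwards [(tendsto_order.1 (nm_ang_slope hdr)).2 c hr, nm_ang_ev_lt hv.2] with h h1 h2
      refine lt_of_le_of_lt ?_ h1
      refine div_le_div_of_nonneg_right ?_ h2.1.le
      have := H.dec r hrm v hv v (v + h) hrange.2.le le_rfl (by linarith [h2.1]) h2.2
      rw [H.z v hv] at this
      linarith
    · have e : nmAngE W v0 r v = 1 := by
        unfold nmAngE
        rw [if_neg hrange]
      rw [e] at hr
      filter_upwards [nm_ang_ev_lt hv.2] with h h2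
      refine lt_of_le_of_lt ?_ hr
      rw [div_le_one h2.1]
      have := (H.inc v hv v (v + h) le_rfl (by linarith [h2.1]) h2.2).2
      rw [H.z v hv] at this
      linarith

end Claimed.Agent.R256
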