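import Claimed.Agent.R256.Nm.Tra.AngSeq
import Claimed.Agent.R256.Nm.Tra.AngCore

/-!
# Row 256 (S0496), unit NM, block TRA: **Y2 (ang)**, abstract      (helper91; exit `nm_tra_ang` = `nm_tr_ang` of `Nm/Contract.lean` verbatim).   Mathlib only, no `sorry`.

The cut-off quotients `nmAngP n z` along `1/(n+1)` are measurable in `z = (a, v)`; the set where they converge is measurable; Fubini; `mm z = limsup_n nmAngP n z`.
-/

set_option autoImplicit false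

namespace Claimed.Agent.R256

open MeasureTheory Filter Topology
open scoped ENNReal

variable {U : ℝ → ℝ → ℝ → ℝ} {a0 a1 v0 v1 C : ℝ}

/-- the cut-off difference quotients along `1/(n+1)` -/
noncomputable def nmAngP (U : ℝ → ℝ → ℝ → ℝ) (a0 a1 v0 v1 : ℝ) (n : ℕ) : ℝ × ℝ → ℝ :=
  (nmTraD a0 a1 v0 v1 (1 / ((n : ℝ) + 1))).indicator fun z => U (z.2 + 1 / ((n : ℝ) + 1)) z.1 z.2 * ((n : ℝ) + 1)

theorem nm_ang_P_meas (H : NmTraHyp U a0 a1 v0 v1 C) (n : ℕ) : Measurable (nmAngP U a0 a1 v0 v1 n) :=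
  nm_tra_ind_meas (nm_tra_D_open _ _ _ _ _) ((nm_tra_cont H (by positivity)).mul continuousOn_const)

theorem nm_ang_W (H : NmTraHyp U a0 a1 v0 v1 C) {a v : ℝ} (ha : a ∈ Set.Ioo a0 a1) (hv : v ∈ Set.Ioo v0 v1) : NmAngW (fun s => U (v + s) a v) (v1 - v) where
  pos := by linarith [hv.2]
  mono := fun s t hs hst ht => by
    have := (H.h1 a ha v hv (v + s) (v + t) (by linarith) (by linarith) (by linarith)).1
    linarith
  lo := fun s hs hs1 => (nm_tra_val H ha hv hs (by linarith)).1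
  hi := fun s hs hs1 => (nm_tra_val H ha hv hs (by linarith)).2

theorem nm_ang_P_ev {a v : ℝ} (ha : a ∈ Set.Ioo a0 a1) (hv : v ∈ Set.Ioo v0 v1) :
    (fun n => nmAngP U a0 a1 v0 v1 n (a, v)) =ᶠ[atTop] nmAngX fun s => U (v + s) a v := by
  filter_upwards [nm_ang_seq_tendsto0.eventually (nm_ang_ev_lt hv.2)] with n hn
  have hm : (a, v) ∈ nmTraD a0 a1 v0 v1 (1 / ((n : ℝ) + 1)) := ⟨ha.1, ha.2, hv.1, hn.2⟩
  unfold nmAngP nmAngX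
  rw [Set.indicator_of_mem hm]

theorem nm_ang_P_out {z : ℝ × ℝ} (hz : ¬ (z.1 ∈ Set.Ioo a0 a1 ∧ z.2 ∈ Set.Ioo v0 v1)) (n : ℕ) : nmAngP U a0 a1 v0 v1 n z = 0 := by
  refine Set.indicator_of_notMem (fun hm => hz ⟨⟨hm.1, hm.2.1⟩, hm.2.2.1, ?_⟩) _
  have : (0 : ℝ) < 1 / ((n : ℝ) + 1) := by positivity
  linarith [hm.2.2.2]

/-- the good set -/
def nmAngS (U : ℝ → ℝ → ℝ → ℝ) (a0 a1 v0 v1 : ℝ) : Set (ℝ × ℝ) := {z | ∃ l, Tendsto (fun n => nmAngP U a0 a1 v0 v1 n z) atTop (𝓝 l)}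

theorem nm_ang_S_meas (H : NmTraHyp U a0 a1 v0 v1 C) : MeasurableSet (nmAngS U a0 a1 v0 v1) :=
  MeasureTheory.measurableSet_exists_tendsto (nm_ang_P_meas H)

theorem nm_ang_H (H : NmTraHyp U a0 a1 v0 v1 C) {a : ℝ} (ha : a ∈ Set.Ioo a0 a1) : NmAngH (fun v x => U x a v) v0 v1 where
  z := fun v hv => H.h0 a ha v hv
  inc := fun v hv x x' => H.h1 a ha v hv x x'
  dec := fun v hv v' hv' x x' hvv => H.h2 a ha a ha v hv v' hv' x x' le_rfl hvv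

/-- for EVERY `a`, almost every `v` is good -/
theorem nm_ang_ae (H : NmTraHyp U a0 a1 v0 v1 C) (a : ℝ) : ∀ᵐ v : ℝ, (a, v) ∈ nmAngS U a0 a1 v0 v1 := by
  by_cases ha : a ∈ Set.Ioo a0 a1
  · filter_upwards [nm_ang_core (nm_ang_H H ha)] with v hv
    by_cases hvm : v ∈ Set.Ioo v0 v1
    · exact ⟨_, (nm_ang_to_seq (w := fun s => U (v + s) a v) (hv hvm)).congr' (nm_ang_P_ev ha hvm).symm⟩
    · refine ⟨0, ?_⟩
      simp only [nm_ang_P_out (z := (a, v)) (fun h => hvm h.2)]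
      exact tendsto_const_nhds
  · refine Eventually.of_forall fun v => ⟨0, ?_⟩
    simp only [nm_ang_P_out (z := (a, v)) (fun h => ha h.1)]
    exact tendsto_const_nhds

/-- deterministic part -/
theorem nm_ang_det (H : NmTraHyp U a0 a1 v0 v1 C) {a v : ℝ} (ha : a ∈ Set.Ioo a0 a1) (hv : v ∈ Set.Ioo v0 v1) (hz : (a, v) ∈ nmAngS U a0 a1 v0 v1)
    (p : ℝ) (hp : 0 ≤ p) :
    Tendsto (fun h : ℝ => U (v + p * h) a v / h) (𝓝[>] 0) (𝓝 (limsup (fun h : ℝ => U (v + h) a v / h) (𝓝[>] 0) * p)) := by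
  obtain ⟨l, hl⟩ := hz
  have h1 : Tendsto (fun h : ℝ => U (v + h) a v / h) (𝓝[>] 0) (𝓝 l) := nm_ang_of_seq (nm_ang_W H ha hv) (hl.congr' (nm_ang_P_ev ha hv))
  rw [h1.limsup_eq]
  rcases hp.eq_or_lt with rfl | hp
  · simp [H.h0 a ha v hv]
  · have hm : Tendsto (fun h : ℝ => p * h) (𝓝[>] 0) (𝓝[>] 0) := by
      refine tendsto_nhdsWithin_iff.2 ⟨?_, ?_⟩
      · have : Tendsto (fun h : ℝ => p * h) (𝓝 0) (𝓝 (p * 0)) := (continuous_const.mul continuous_id).tendsto 0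
        rw [mul_zero] at this
        exact this.mono_left nhdsWithin_le_nhds
      · filter_upwards [self_mem_nhdsWithin] with h hh
        exact mul_pos hp hh
    have h2 := (h1.comp hm).mul_const p
    refine h2.congr' ?_
    filter_upwards [self_mem_nhdsWithin] with h hh
    have hh0 : (0 : ℝ) < h := hh
    simp only [Function.comp_def]
    field_simp

/-- **Y2** (ang), abstract -/
theorem nm_tra_ang (U : ℝ → ℝ → ℝ → ℝ) (a0 a1 v0 v1 C : ℝ)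
    (h0 : ∀ a ∈ Set.Ioo a0 a1, ∀ v ∈ Set.Ioo v0 v1, U v a v = 0)
    (h1 : ∀ a ∈ Set.Ioo a0 a1, ∀ v ∈ Set.Ioo v0 v1, ∀ x x', v ≤ x → x ≤ x' → x' < v1 → 0 ≤ U x' a v - U x a v ∧ U x' a v - U x a v ≤ x' - x)
    (h2 : ∀ a ∈ Set.Ioo a0 a1, ∀ a' ∈ Set.Ioo a0 a1, ∀ v ∈ Set.Ioo v0 v1, ∀ v' ∈ Set.Ioo v0 v1, ∀ x x', a ≤ a' → v ≤ v' → v' ≤ x → x ≤ x' → x' < v1 →
      U x' a' v' - U x a' v' ≤ U x' a v - U x a v)
    (h3 : ∀ a ∈ Set.Ioo a0 a1, ∀ a' ∈ Set.Ioo a0 a1, ∀ v ∈ Set.Ioo v0 v1, ∀ v' ∈ Set.Ioo v0 v1, ∀ x, |U x a v - U x a' v'| ≤ C * (|a - a'| + |v - v'|)) :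
    (∀ a ∈ Set.Ioo a0 a1, ∀ᵐ v : ℝ, v ∈ Set.Ioo v0 v1 → ∀ p : ℝ, 0 ≤ p →
      Tendsto (fun h : ℝ => U (v + p * h) a v / h) (𝓝[>] 0) (𝓝 (limsup (fun h : ℝ => U (v + h) a v / h) (𝓝[>] 0) * p))) ∧
    (∀ᵐ z : ℝ × ℝ, z.1 ∈ Set.Ioo a0 a1 → z.2 ∈ Set.Ioo v0 v1 → ∀ p : ℝ, 0 ≤ p →
      Tendsto (fun h : ℝ => U (z.2 + p * h) z.1 z.2 / h) (𝓝[>] 0) (𝓝 (limsup (fun h : ℝ => U (z.2 + h) z.1 z.2 / h) (𝓝[>] 0) * p))) ∧
    ∃ mm : ℝ × ℝ → ℝ, Measurable mm ∧ ∀ z : ℝ × ℝ, z.1 ∈ Set.Ioo a0 a1 → z.2 ∈ Set.Ioo v0 v1 →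
      mm z = limsup (fun h : ℝ => U (z.2 + h) z.1 z.2 / h) (𝓝[>] 0) := by
  have H : NmTraHyp U a0 a1 v0 v1 C := ⟨h0, h1, h2, h3⟩
  refine ⟨?_, ?_, ?_⟩
  · intro a ha
    filter_upwards [nm_ang_ae H a] with v hz hv p hp
    exact nm_ang_det H ha hv hz p hp
  · filter_upwards [nm_tra_fubini_fst (nm_ang_S_meas H) (nm_ang_ae H)] with z hz ha hv p hp
    exact nm_ang_det H ha hv hz p hp
  · refine ⟨fun z => limsup (fun n => nmAngP U a0 a1 v0 v1 n z) atTop, Measurable.limsup (nm_ang_P_meas H), ?_⟩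
    intro z ha hv
    rw [nm_ang_limsup (nm_ang_W H ha hv)]
    exact limsup_congr (nm_ang_P_ev ha hv)

end Claimed.Agent.R256
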