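import Claimed.Agent.R256.Nm.Tra.Kit

/-!
# Row 256 (S0496), unit NM, block TRA: **Y3 (ng)**, abstract (04 l.374-386, report 848)      (helper91; prefix `nm_ng_`, exit `nm_tra_ng` = `nm_tr_ng` of `Nm/Contract.lean` verbatim).   No `sorry`.

`g(s) = U (v+s) a v - U (v+s) (a+s) v` is `≥ 0` and nondecreasing in `s`;  `∫ g(s) da ≤ s²` (telescoping of an antitone function with values in `[0,s]`);  Borel-Cantelli along `s = 2^-n`;  monotonicity fills the gaps;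
the good set is measurable (`g(2^-n)` is continuous on its domain), Fubini gives the planar statement.
-/

set_option autoImplicit false

namespace Claimed.Agent.R256

open MeasureTheory Filter Topology
open scoped ENNReal

variable {U : ℝ → ℝ → ℝ → ℝ} {a0 a1 v0 v1 C : ℝ}

/-- the domain of the difference -/
def nmNgO (a0 a1 v0 v1 s : ℝ) : Set (ℝ × ℝ) := {z | a0 < z.1 ∧ z.1 + s < a1 ∧ v0 < z.2 ∧ z.2 + s < v1}

/-- the difference `U (v + s) a v - U (v + s) (a + s) v`, cut off outside its domain -/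
noncomputable def nmNgG (U : ℝ → ℝ → ℝ → ℝ) (a0 a1 v0 v1 s : ℝ) : ℝ × ℝ → ℝ :=
  (nmNgO a0 a1 v0 v1 s).indicator fun z => U (z.2 + s) z.1 z.2 - U (z.2 + s) (z.1 + s) z.2

theorem nm_ng_O_open (a0 a1 v0 v1 s : ℝ) : IsOpen (nmNgO a0 a1 v0 v1 s) := by
  unfold nmNgO
  refine IsOpen.inter (isOpen_lt continuous_const continuous_fst) (IsOpen.inter (isOpen_lt (continuous_fst.add continuous_const) continuous_const)
    (IsOpen.inter (isOpen_lt continuous_const continuous_snd) (isOpen_lt (continuous_snd.add continuous_const) continuous_const)))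

theorem nm_ng_G_meas (H : NmTraHyp U a0 a1 v0 v1 C) {s : ℝ} (hs : 0 < s) : Measurable (nmNgG U a0 a1 v0 v1 s) := by
  refine nm_tra_ind_meas (nm_ng_O_open a0 a1 v0 v1 s) ?_
  have hc := nm_tra_cont H hs
  refine ContinuousOn.sub (hc.mono fun z hz => ⟨hz.1, by linarith [hz.2.1], hz.2.2.1, hz.2.2.2⟩) ?_
  have hsh : ContinuousOn (fun z : ℝ × ℝ => (z.1 + s, z.2)) (nmNgO a0 a1 v0 v1 s) :=
    ((continuous_fst.add continuous_const).prodMk continuous_snd).continuousOn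
  exact hc.comp hsh fun z hz => ⟨by show a0 < z.1 + s; linarith [hz.1], hz.2.1, hz.2.2.1, hz.2.2.2⟩

/-- the difference is nonnegative and nondecreasing in `s` -/
theorem nm_ng_mono (H : NmTraHyp U a0 a1 v0 v1 C) {a v s s' : ℝ} (ha : a ∈ Set.Ioo a0 a1) (hv : v ∈ Set.Ioo v0 v1) (hs : 0 ≤ s) (hss : s ≤ s')
    (ha' : a + s' < a1) (hv' : v + s' < v1) :
    0 ≤ U (v + s) a v - U (v + s) (a + s) v ∧ U (v + s) a v - U (v + s) (a + s) v ≤ U (v + s') a v - U (v + s') (a + s') v := by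
  have m1 : a + s ∈ Set.Ioo a0 a1 := ⟨by linarith [ha.1], by linarith⟩
  have m2 : a + s' ∈ Set.Ioo a0 a1 := ⟨by linarith [ha.1], ha'⟩
  have b1 := nm_tra_anti H ha m1 (by linarith) hv hs (by linarith)
  have b2 := nm_tra_anti H m1 m2 (by linarith) hv (hs.trans hss) hv'
  have b3 := H.h2 a ha (a + s) m1 v hv v hv (v + s) (v + s') (by linarith) le_rfl (by linarith) (by linarith) hv'
  constructor <;> linarith

theorem nm_ng_G_nonneg (H : NmTraHyp U a0 a1 v0 v1 C) {s : ℝ} (hs : 0 ≤ s) (z : ℝ × ℝ) : 0 ≤ nmNgG U a0 a1 v0 v1 s z := by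
  unfold nmNgG
  refine Set.indicator_nonneg (fun z hz => ?_) z
  exact (nm_ng_mono H (a := z.1) (v := z.2) ⟨hz.1, by linarith [hz.2.1]⟩ ⟨hz.2.2.1, by linarith [hz.2.2.2]⟩ hs le_rfl hz.2.1 hz.2.2.2).1

/-- the integral bound `∫ (f_s(a) - f_s(a + s)) da ≤ s²` -/
theorem nm_ng_int (H : NmTraHyp U a0 a1 v0 v1 C) {s : ℝ} (hs : 0 < s) (v : ℝ) :
    ∫⁻ a, ENNReal.ofReal (nmNgG U a0 a1 v0 v1 s (a, v)) ≤ ENNReal.ofReal (s ^ 2) := by
  classical
  by_cases hv : v0 < v ∧ v + s < v1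
  swap
  · have : ∀ a, nmNgG U a0 a1 v0 v1 s (a, v) = 0 := by
      intro a
      refine Set.indicator_of_notMem (fun hz => hv ⟨hz.2.2.1, hz.2.2.2⟩) _
    simp [this]
  obtain ⟨hv0, hv1⟩ := hv
  have hvm : v ∈ Set.Ioo v0 v1 := ⟨hv0, by linarith⟩
  by_cases hlen : a0 ≤ a1 - s
  swap
  · have : ∀ a, nmNgG U a0 a1 v0 v1 s (a, v) = 0 := by
      intro a
      refine Set.indicator_of_notMem (fun hz => hlen ?_) _
      have h1 : a0 < a := hz.1
      have h2 : a + s < a1 := hz.2.1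
      linarith
    simp [this]
  -- the antitone extension
  obtain ⟨F, hF⟩ : ∃ F : ℝ → ℝ, F = fun a => if a ≤ a0 then s else if a1 ≤ a then 0 else U (v + s) a v := ⟨_, rfl⟩
  have hFin : ∀ a, a0 < a → a < a1 → F a = U (v + s) a v := by
    intro a h1 h2
    rw [hF]
    simp only [not_le.2 h1, not_le.2 h2, if_false]
  have hF0 : ∀ a, 0 ≤ F a ∧ F a ≤ s := by
    intro a
    by_cases h1 : a ≤ a0
    · rw [hF]; simp only [h1, if_true]; exact ⟨hs.le, le_rfl⟩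
    · by_cases h2 : a1 ≤ a
      · rw [hF]; simp only [h1, h2, if_true, if_false]; exact ⟨le_rfl, hs.le⟩
      · rw [hFin a (not_le.1 h1) (not_le.1 h2)]
        exact nm_tra_val H ⟨not_le.1 h1, not_le.1 h2⟩ hvm hs.le hv1
  have hFanti : Antitone F := by
    intro a b hab
    by_cases h1 : a ≤ a0
    · have : F a = s := by rw [hF]; simp only [h1, if_true]
      rw [this]; exact (hF0 b).2
    · by_cases h2 : a1 ≤ b
      · have : F b = 0 := by
          rw [hF]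
          have : ¬ b ≤ a0 := by
            intro h
            exact h1 (hab.trans h)
          simp only [this, h2, if_true, if_false]
        rw [this]; exact (hF0 a).1
      · have ha : a ∈ Set.Ioo a0 a1 := ⟨not_le.1 h1, lt_of_le_of_lt hab (not_le.1 h2)⟩
        have hb : b ∈ Set.Ioo a0 a1 := ⟨lt_of_lt_of_le (not_le.1 h1) hab, not_le.1 h2⟩
        rw [hFin a ha.1 ha.2, hFin b hb.1 hb.2]
        exact nm_tra_anti H ha hb hab hvm hs.le hv1
  have hFanti' : Antitone fun a => F (a + s) := fun a b hab => hFanti (by linarith)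
  have hint : ∀ x y : ℝ, IntervalIntegrable F volume x y := fun x y => hFanti.intervalIntegrable
  have hint' : ∀ x y : ℝ, IntervalIntegrable (fun a => F (a + s)) volume x y := fun x y => hFanti'.intervalIntegrable
  have key : ∫ a in a0..(a1 - s), (F a - F (a + s)) ≤ s ^ 2 := by
    rw [intervalIntegral.integral_sub (hint _ _) (hint' _ _), intervalIntegral.integral_comp_add_right,
      intervalIntegral.integral_interval_sub_interval_comm (hint _ _) (hint _ _) (hint _ _)]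
    have u1 : ∫ a in a0..(a0 + s), F a ≤ s * s := by
      have := intervalIntegral.integral_mono_on (a := a0) (b := a0 + s) (by linarith) (hint _ _)
        (intervalIntegrable_const (c := s)) (fun x _ => (hF0 x).2)
      simpa using this
    have u2 : 0 ≤ ∫ a in (a1 - s)..(a1 - s + s), F a := intervalIntegral.integral_nonneg (by linarith) fun a _ => (hF0 a).1
    nlinarith
  have hdiff0 : ∀ a, 0 ≤ F a - F (a + s) := fun a => sub_nonneg.2 (hFanti (by linarith))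
  have hle : ∀ a, ENNReal.ofReal (nmNgG U a0 a1 v0 v1 s (a, v)) ≤ (Set.Ioc a0 (a1 - s)).indicator (fun a => ENNReal.ofReal (F a - F (a + s))) a := by
    intro a
    by_cases hz : (a, v) ∈ nmNgO a0 a1 v0 v1 s
    · have h1 : a0 < a := hz.1
      have h2 : a + s < a1 := hz.2.1
      have hm : a ∈ Set.Ioc a0 (a1 - s) := ⟨h1, by linarith⟩
      rw [Set.indicator_of_mem hm]
      unfold nmNgG
      rw [Set.indicator_of_mem hz, hFin a h1 (by linarith), hFin (a + s) (by linarith) h2]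
    · unfold nmNgG
      rw [Set.indicator_of_notMem hz]
      simp
  calc ∫⁻ a, ENNReal.ofReal (nmNgG U a0 a1 v0 v1 s (a, v))
      ≤ ∫⁻ a, (Set.Ioc a0 (a1 - s)).indicator (fun a => ENNReal.ofReal (F a - F (a + s))) a := lintegral_mono hle
    _ = ∫⁻ a in Set.Ioc a0 (a1 - s), ENNReal.ofReal (F a - F (a + s)) := lintegral_indicator measurableSet_Ioc _
    _ = ENNReal.ofReal (∫ a in Set.Ioc a0 (a1 - s), (F a - F (a + s))) := by
        rw [ofReal_integral_eq_lintegral_ofReal]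
        · exact ((hint a0 (a1 - s)).sub (hint' a0 (a1 - s))).1
        · exact Eventually.of_forall hdiff0
    _ = ENNReal.ofReal (∫ a in a0..(a1 - s), (F a - F (a + s))) := by rw [intervalIntegral.integral_of_le hlen]
    _ ≤ ENNReal.ofReal (s ^ 2) := ENNReal.ofReal_le_ofReal key


/-- the normalised dyadic differences -/
noncomputable def nmNgF (U : ℝ → ℝ → ℝ → ℝ) (a0 a1 v0 v1 : ℝ) (n : ℕ) (z : ℝ × ℝ) : ℝ := nmNgG U a0 a1 v0 v1 ((1 / 2 : ℝ) ^ n) z / (1 / 2 : ℝ) ^ n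

theorem nm_ng_F_meas (H : NmTraHyp U a0 a1 v0 v1 C) (n : ℕ) : Measurable (nmNgF U a0 a1 v0 v1 n) :=
  (nm_ng_G_meas H (by positivity)).div_const _

/-- the good set -/
def nmNgS (U : ℝ → ℝ → ℝ → ℝ) (a0 a1 v0 v1 : ℝ) : Set (ℝ × ℝ) := {z | Tendsto (fun n => nmNgF U a0 a1 v0 v1 n z) atTop (𝓝 0)}

theorem nm_ng_S_meas (H : NmTraHyp U a0 a1 v0 v1 C) : MeasurableSet (nmNgS U a0 a1 v0 v1) :=
  measurableSet_tendsto (𝓝 0) (nm_ng_F_meas H)

/-- for EVERY `v`, almost every `a` is good -/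
theorem nm_ng_ae (H : NmTraHyp U a0 a1 v0 v1 C) (v : ℝ) : ∀ᵐ a : ℝ, (a, v) ∈ nmNgS U a0 a1 v0 v1 := by
  refine nm_tra_bc volume (fun n a => nmNgF U a0 a1 v0 v1 n (a, v)) (fun n => (nm_ng_F_meas H n).comp measurable_prodMk_right)
    (fun n a => div_nonneg (nm_ng_G_nonneg H (by positivity) _) (by positivity)) (fun n => ENNReal.ofReal ((1 / 2 : ℝ) ^ n)) ?_ ?_
  · rw [← ENNReal.ofReal_tsum_of_nonneg (fun n => by positivity) summable_geometric_two]
    exact ENNReal.ofReal_ne_top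
  · intro n
    have hp : (0 : ℝ) < (1 / 2 : ℝ) ^ n := by positivity
    have e : ∀ a, ENNReal.ofReal (nmNgF U a0 a1 v0 v1 n (a, v)) = ENNReal.ofReal (((1 / 2 : ℝ) ^ n)⁻¹) * ENNReal.ofReal (nmNgG U a0 a1 v0 v1 ((1 / 2 : ℝ) ^ n) (a, v)) := by
      intro a
      rw [← ENNReal.ofReal_mul (by positivity)]
      congr 1
      unfold nmNgF
      rw [div_eq_inv_mul]
    simp only [e]
    have hm : Measurable fun a : ℝ => ENNReal.ofReal (nmNgG U a0 a1 v0 v1 ((1 / 2 : ℝ) ^ n) (a, v)) :=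
      ((nm_ng_G_meas H hp).comp measurable_prodMk_right).ennreal_ofReal
    rw [lintegral_const_mul _ hm]
    refine (mul_le_mul_right (nm_ng_int H hp v) _).trans ?_
    rw [← ENNReal.ofReal_mul (by positivity)]
    refine ENNReal.ofReal_le_ofReal (le_of_eq ?_)
    field_simp

/-- deterministic part: dyadic convergence gives convergence along `s → 0+` -/
theorem nm_ng_det0 (H : NmTraHyp U a0 a1 v0 v1 C) {a v : ℝ} (ha : a ∈ Set.Ioo a0 a1) (hv : v ∈ Set.Ioo v0 v1) (hz : (a, v) ∈ nmNgS U a0 a1 v0 v1) :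
    Tendsto (fun s : ℝ => (U (v + s) a v - U (v + s) (a + s) v) / s) (𝓝[>] 0) (𝓝 0) := by
  have hδ : 0 < min (a1 - a) (v1 - v) := lt_min (by linarith [ha.2]) (by linarith [hv.2])
  rw [Metric.tendsto_nhdsWithin_nhds]
  intro ε hε
  have hz' : Tendsto (fun n => nmNgF U a0 a1 v0 v1 n (a, v)) atTop (𝓝 0) := hz
  obtain ⟨n0, hn0⟩ := (Metric.tendsto_atTop.1 hz') (ε / 2) (by positivity)
  obtain ⟨n1, hn1⟩ := exists_pow_lt_of_lt_one hδ (by norm_num : (1 / 2 : ℝ) < 1)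
  refine ⟨(1 / 2 : ℝ) ^ (max n0 n1), by positivity, ?_⟩
  intro s hs hd
  have hs0 : 0 < s := hs
  rw [Real.dist_eq, sub_zero, abs_of_pos hs0] at hd
  have hs1 : s < 1 := lt_of_lt_of_le hd (pow_le_one₀ (by norm_num) (by norm_num))
  obtain ⟨n, hn, hn'⟩ := exists_nat_pow_near_of_lt_one hs0 hs1.le (by norm_num : (0 : ℝ) < 1 / 2) (by norm_num : (1 / 2 : ℝ) < 1)
  have hnN : max n0 n1 ≤ n := by
    have h1 : (1 / 2 : ℝ) ^ (n + 1) < (1 / 2 : ℝ) ^ (max n0 n1) := hn.trans hd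
    have h2 := (pow_lt_pow_iff_right_of_lt_one₀ (by norm_num : (0 : ℝ) < 1 / 2) (by norm_num : (1 / 2 : ℝ) < 1)).1 h1
    omega
  have hpn : (1 / 2 : ℝ) ^ n < min (a1 - a) (v1 - v) :=
    lt_of_le_of_lt (pow_le_pow_of_le_one (by norm_num) (by norm_num) ((le_max_right _ _).trans hnN)) hn1
  have hpa : a + (1 / 2 : ℝ) ^ n < a1 := by linarith [lt_of_lt_of_le hpn (min_le_left _ _)]
  have hpv : v + (1 / 2 : ℝ) ^ n < v1 := by linarith [lt_of_lt_of_le hpn (min_le_right _ _)]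
  obtain ⟨m0, m1⟩ := nm_ng_mono H ha hv hs0.le hn' hpa hpv
  have hF := hn0 n ((le_max_left _ _).trans hnN)
  have hmem : (a, v) ∈ nmNgO a0 a1 v0 v1 ((1 / 2 : ℝ) ^ n) := ⟨ha.1, hpa, hv.1, hpv⟩
  have hFe : nmNgF U a0 a1 v0 v1 n (a, v) = (U (v + (1 / 2 : ℝ) ^ n) a v - U (v + (1 / 2 : ℝ) ^ n) (a + (1 / 2 : ℝ) ^ n) v) / (1 / 2 : ℝ) ^ n := by
    unfold nmNgF nmNgG
    rw [Set.indicator_of_mem hmem]
  rw [hFe, Real.dist_eq, sub_zero] at hF
  have hp : (0 : ℝ) < (1 / 2 : ℝ) ^ n := by positivity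
  have hF' := (abs_lt.1 hF).2
  rw [div_lt_iff₀ hp] at hF'
  rw [Real.dist_eq, sub_zero, abs_of_nonneg (div_nonneg m0 hs0.le), div_lt_iff₀ hs0]
  have e : (1 / 2 : ℝ) ^ (n + 1) = (1 / 2 : ℝ) ^ n / 2 := by rw [pow_succ]; ring
  rw [e] at hn
  nlinarith

theorem nm_ng_det (H : NmTraHyp U a0 a1 v0 v1 C) {a v : ℝ} (ha : a ∈ Set.Ioo a0 a1) (hv : v ∈ Set.Ioo v0 v1) (hz : (a, v) ∈ nmNgS U a0 a1 v0 v1)
    (G : ℝ) (hG : 0 ≤ G) :
    Tendsto (fun h : ℝ => (U (v + G * h) a v - U (v + G * h) (a + G * h) v) / h) (𝓝[>] 0) (𝓝 0) := by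
  rcases hG.eq_or_lt with rfl | hG
  · simp
  · have h0 := nm_ng_det0 H ha hv hz
    have hm : Tendsto (fun h : ℝ => G * h) (𝓝[>] 0) (𝓝[>] 0) := by
      refine tendsto_nhdsWithin_iff.2 ⟨?_, ?_⟩
      · have : Tendsto (fun h : ℝ => G * h) (𝓝 0) (𝓝 (G * 0)) := (continuous_const.mul continuous_id).tendsto 0
        rw [mul_zero] at this
        exact this.mono_left nhdsWithin_le_nhds
      · filter_upwards [self_mem_nhdsWithin] with h hh
        exact mul_pos hG hh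
    have h1 := (h0.comp hm).const_mul G
    rw [mul_zero] at h1
    refine h1.congr' ?_
    filter_upwards [self_mem_nhdsWithin] with h hh
    have hh0 : (0 : ℝ) < h := hh
    simp only [Function.comp_def]
    field_simp

/-- **Y3** (ng), abstract -/
theorem nm_tra_ng (U : ℝ → ℝ → ℝ → ℝ) (a0 a1 v0 v1 C : ℝ)
    (h0 : ∀ a ∈ Set.Ioo a0 a1, ∀ v ∈ Set.Ioo v0 v1, U v a v = 0)
    (h1 : ∀ a ∈ Set.Ioo a0 a1, ∀ v ∈ Set.Ioo v0 v1, ∀ x x', v ≤ x → x ≤ x' → x' < v1 → 0 ≤ U x' a v - U x a v ∧ U x' a v - U x a v ≤ x' - x)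
    (h2 : ∀ a ∈ Set.Ioo a0 a1, ∀ a' ∈ Set.Ioo a0 a1, ∀ v ∈ Set.Ioo v0 v1, ∀ v' ∈ Set.Ioo v0 v1, ∀ x x', a ≤ a' → v ≤ v' → v' ≤ x → x ≤ x' → x' < v1 →
      U x' a' v' - U x a' v' ≤ U x' a v - U x a v)
    (h3 : ∀ a ∈ Set.Ioo a0 a1, ∀ a' ∈ Set.Ioo a0 a1, ∀ v ∈ Set.Ioo v0 v1, ∀ v' ∈ Set.Ioo v0 v1, ∀ x, |U x a v - U x a' v'| ≤ C * (|a - a'| + |v - v'|)) :
    (∀ v ∈ Set.Ioo v0 v1, ∀ᵐ a : ℝ, a ∈ Set.Ioo a0 a1 → ∀ G : ℝ, 0 ≤ G →
      Tendsto (fun h : ℝ => (U (v + G * h) a v - U (v + G * h) (a + G * h) v) / h) (𝓝[>] 0) (𝓝 0)) ∧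
    (∀ᵐ z : ℝ × ℝ, z.1 ∈ Set.Ioo a0 a1 → z.2 ∈ Set.Ioo v0 v1 → ∀ G : ℝ, 0 ≤ G →
      Tendsto (fun h : ℝ => (U (z.2 + G * h) z.1 z.2 - U (z.2 + G * h) (z.1 + G * h) z.2) / h) (𝓝[>] 0) (𝓝 0)) := by
  have H : NmTraHyp U a0 a1 v0 v1 C := ⟨h0, h1, h2, h3⟩
  constructor
  · intro v hv
    filter_upwards [nm_ng_ae H v] with a hz ha G hG
    exact nm_ng_det H ha hv hz G hG
  · filter_upwards [nm_tra_fubini_snd (nm_ng_S_meas H) (nm_ng_ae H)] with z hz ha hv G hG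
    exact nm_ng_det H ha hv hz G hG

end Claimed.Agent.R256
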