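import Claimed.Agent.R256.Nm.Tra.Kit

/-!
# Row 256 (S0496), unit NM, block TRA, Y2 (ang), file 1: difference quotients of a monotone function along `1/(n+1)` and along `h → 0+`      (helper91; prefix `nm_ang_`).   Mathlib only, no `sorry`.

`w` nondecreasing on `[0,δ)`, `0 ≤ w s ≤ s`:  sandwich `X (n+1) - 1/(n+1) ≤ w h / h ≤ X n + 1/(n+1)` for `1/(n+2) < h ≤ 1/(n+1)`;  so limits and upper limits along the sequence and along `𝓝[>] 0` agree.
-/

set_option autoImplicit false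

namespace Claimed.Agent.R256

open MeasureTheory Filter Topology
open scoped ENNReal

/-- `w` nondecreasing on `[0, δ)` with `0 ≤ w s ≤ s` -/
structure NmAngW (w : ℝ → ℝ) (δ : ℝ) : Prop where
  pos : 0 < δ
  mono : ∀ s t, 0 ≤ s → s ≤ t → t < δ → w s ≤ w t
  lo : ∀ s, 0 ≤ s → s < δ → 0 ≤ w s
  hi : ∀ s, 0 ≤ s → s < δ → w s ≤ s

/-- the difference quotients along `1 / (n + 1)` -/
noncomputable def nmAngX (w : ℝ → ℝ) (n : ℕ) : ℝ := w (1 / ((n : ℝ) + 1)) * ((n : ℝ) + 1)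

variable {w : ℝ → ℝ} {δ : ℝ}

theorem nm_ang_X_eq (w : ℝ → ℝ) (n : ℕ) : nmAngX w n = w (1 / ((n : ℝ) + 1)) / (1 / ((n : ℝ) + 1)) := by
  unfold nmAngX
  rw [div_div_eq_mul_div, div_one]

theorem nm_ang_seq_tendsto0 : Tendsto (fun n : ℕ => 1 / ((n : ℝ) + 1)) atTop (𝓝[>] 0) := by
  refine tendsto_nhdsWithin_iff.2 ⟨tendsto_one_div_add_atTop_nhds_zero_nat, Eventually.of_forall fun n => ?_⟩
  show (0 : ℝ) < 1 / ((n : ℝ) + 1)
  positivity

/-- the quotient is eventually in `[0,1]` -/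
theorem nm_ang_bd (hw : NmAngW w δ) : ∀ᶠ h in 𝓝[>] (0 : ℝ), 0 ≤ w h / h ∧ w h / h ≤ 1 := by
  have h1 : ∀ᶠ h in 𝓝[>] (0 : ℝ), h < δ := (eventually_lt_nhds hw.pos).filter_mono nhdsWithin_le_nhds
  filter_upwards [h1, self_mem_nhdsWithin] with h hh hp
  have hp0 : (0 : ℝ) < h := hp
  exact ⟨div_nonneg (hw.lo h hp0.le hh) hp0.le, (div_le_one hp0).2 (hw.hi h hp0.le hh)⟩

/-- **the sandwich** -/
theorem nm_ang_sand (hw : NmAngW w δ) (N : ℕ) :
    ∀ᶠ h in 𝓝[>] (0 : ℝ), ∃ n, N ≤ n ∧ nmAngX w (n + 1) - 1 / ((n : ℝ) + 1) ≤ w h / h ∧ w h / h ≤ nmAngX w n + 1 / ((n : ℝ) + 1) := by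
  obtain ⟨N0, hN0⟩ := exists_nat_one_div_lt hw.pos
  have hpos : (0 : ℝ) < 1 / (((max N N0 : ℕ) : ℝ) + 1) := by positivity
  have h1 : ∀ᶠ h in 𝓝[>] (0 : ℝ), h < 1 / (((max N N0 : ℕ) : ℝ) + 1) := (eventually_lt_nhds hpos).filter_mono nhdsWithin_le_nhds
  filter_upwards [h1, self_mem_nhdsWithin] with h hh hp
  have hp0 : (0 : ℝ) < h := hp
  have hinv : (((max N N0 : ℕ) : ℝ) + 1) < 1 / h := by
    rw [lt_div_iff₀ hp0]
    rw [lt_div_iff₀ (by positivity)] at hh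
    linarith
  have hfl := Nat.floor_le (a := 1 / h) (by positivity)
  have hfl' := Nat.lt_floor_add_one (1 / h)
  have hm : max N N0 + 1 ≤ ⌊1 / h⌋₊ := by
    refine Nat.le_floor ?_
    rw [Nat.cast_add, Nat.cast_one]
    exact hinv.le
  obtain ⟨n, hn⟩ : ∃ n, ⌊1 / h⌋₊ = n + 1 := ⟨⌊1 / h⌋₊ - 1, by omega⟩
  rw [hn] at hfl hfl' hm
  push_cast at hfl hfl'
  have hnN : max N N0 ≤ n := by omega
  have hn1 : (0 : ℝ) < (n : ℝ) + 1 := by positivity
  have hn2 : (0 : ℝ) < (n : ℝ) + 1 + 1 := by positivity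
  -- `1/(n+2) < h ≤ 1/(n+1) < δ`
  have a1 : h ≤ 1 / ((n : ℝ) + 1) := by
    rw [le_div_iff₀ hn1]
    rw [le_div_iff₀ hp0] at hfl
    linarith
  have a2 : 1 / ((n : ℝ) + 1 + 1) ≤ h := by
    rw [div_le_iff₀ hn2]
    rw [div_lt_iff₀ hp0] at hfl'
    linarith
  have a3 : 1 / ((n : ℝ) + 1) < δ := by
    refine lt_of_le_of_lt ?_ hN0
    have : (N0 : ℝ) ≤ n := by exact_mod_cast (le_max_right N N0).trans hnN
    exact one_div_le_one_div_of_le (by positivity) (by linarith)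
  have hhδ : h < δ := lt_of_le_of_lt a1 a3
  refine ⟨n, (le_max_left _ _).trans hnN, ?_, ?_⟩
  · -- lower bound
    have b1 : w (1 / ((n : ℝ) + 1 + 1)) ≤ w h := hw.mono _ _ (by positivity) a2 hhδ
    have b2 : 0 ≤ w (1 / ((n : ℝ) + 1 + 1)) := hw.lo _ (by positivity) (lt_of_le_of_lt a2 hhδ)
    have b3 : w (1 / ((n : ℝ) + 1 + 1)) ≤ 1 / ((n : ℝ) + 1 + 1) := hw.hi _ (by positivity) (lt_of_le_of_lt a2 hhδ)
    have b4 : 1 / ((n : ℝ) + 1 + 1) ≤ 1 / ((n : ℝ) + 1) := one_div_le_one_div_of_le hn1 (by linarith)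
    have e : nmAngX w (n + 1) = w (1 / ((n : ℝ) + 1 + 1)) * ((n : ℝ) + 1 + 1) := by
      unfold nmAngX
      push_cast
      rfl
    rw [e, le_div_iff₀ hp0]
    have c1 : ((n : ℝ) + 1) * h ≤ 1 := by
      rw [le_div_iff₀ hn1] at a1
      linarith
    -- (W (n+2) - 1/(n+1)) h ≤ W (n+1) h ≤ W ≤ w h
    have c2 : (w (1 / ((n : ℝ) + 1 + 1)) * ((n : ℝ) + 1 + 1) - 1 / ((n : ℝ) + 1)) * h ≤ w (1 / ((n : ℝ) + 1 + 1)) * (((n : ℝ) + 1) * h) := by
      have : w (1 / ((n : ℝ) + 1 + 1)) * h ≤ 1 / ((n : ℝ) + 1) * h := mul_le_mul_of_nonneg_right (b3.trans b4) hp0.le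
      nlinarith
    have c3 : w (1 / ((n : ℝ) + 1 + 1)) * (((n : ℝ) + 1) * h) ≤ w (1 / ((n : ℝ) + 1 + 1)) * 1 := mul_le_mul_of_nonneg_left c1 b2
    linarith
  · -- upper bound
    have b1 : w h ≤ w (1 / ((n : ℝ) + 1)) := hw.mono _ _ hp0.le a1 a3
    have b2 : 0 ≤ w (1 / ((n : ℝ) + 1)) := hw.lo _ (by positivity) a3
    have b3 : w (1 / ((n : ℝ) + 1)) ≤ 1 / ((n : ℝ) + 1) := hw.hi _ (by positivity) a3
    unfold nmAngX
    rw [div_le_iff₀ hp0]
    have c1 : 1 ≤ ((n : ℝ) + 1 + 1) * h := by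
      rw [div_le_iff₀ hn2] at a2
      linarith
    have c3 : w (1 / ((n : ℝ) + 1)) * 1 ≤ w (1 / ((n : ℝ) + 1)) * (((n : ℝ) + 1 + 1) * h) := mul_le_mul_of_nonneg_left c1 b2
    have c4 : w (1 / ((n : ℝ) + 1)) * h ≤ 1 / ((n : ℝ) + 1) * h := mul_le_mul_of_nonneg_right b3 hp0.le
    nlinarith

/-- convergence along `1/(n+1)` gives convergence along `h → 0+` -/
theorem nm_ang_of_seq (hw : NmAngW w δ) {l : ℝ} (hx : Tendsto (nmAngX w) atTop (𝓝 l)) : Tendsto (fun h => w h / h) (𝓝[>] 0) (𝓝 l) := by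
  rw [Metric.tendsto_nhds]
  intro ε hε
  obtain ⟨N1, hN1⟩ := (Metric.tendsto_atTop.1 hx) (ε / 2) (by positivity)
  obtain ⟨N2, hN2⟩ := exists_nat_one_div_lt (show (0 : ℝ) < ε / 2 by positivity)
  filter_upwards [nm_ang_sand hw (max N1 N2)] with h hh
  obtain ⟨n, hn, lo, hi⟩ := hh
  have e1 := hN1 n ((le_max_left _ _).trans hn)
  have e2 := hN1 (n + 1) (((le_max_left _ _).trans hn).trans (Nat.le_succ n))
  have e3 : 1 / ((n : ℝ) + 1) < ε / 2 := by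
    refine lt_of_le_of_lt ?_ hN2
    have : (N2 : ℝ) ≤ n := by exact_mod_cast (le_max_right N1 N2).trans hn
    exact one_div_le_one_div_of_le (by positivity) (by linarith)
  rw [Real.dist_eq, abs_lt] at e1 e2 ⊢
  constructor <;> linarith [e1.1, e1.2, e2.1, e2.2]

/-- convergence along `h → 0+` gives convergence along `1/(n+1)` -/
theorem nm_ang_to_seq {l : ℝ} (h : Tendsto (fun h => w h / h) (𝓝[>] 0) (𝓝 l)) : Tendsto (nmAngX w) atTop (𝓝 l) := by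
  have := h.comp nm_ang_seq_tendsto0
  refine this.congr fun n => ?_
  rw [nm_ang_X_eq]
  rfl

theorem nm_ang_X_bd (hw : NmAngW w δ) : ∀ᶠ n in atTop, 0 ≤ nmAngX w n ∧ nmAngX w n ≤ 1 := by
  have := nm_ang_seq_tendsto0.eventually (nm_ang_bd hw)
  filter_upwards [this] with n hn
  rw [nm_ang_X_eq]
  exact hn

/-- **the upper limits agree** -/
theorem nm_ang_limsup (hw : NmAngW w δ) : limsup (fun h => w h / h) (𝓝[>] 0) = limsup (nmAngX w) atTop := by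
  have bdh : IsBoundedUnder (· ≤ ·) (𝓝[>] (0 : ℝ)) fun h => w h / h := ⟨1, by
    rw [eventually_map]
    exact (nm_ang_bd hw).mono fun h hh => hh.2⟩
  have bdh' : IsBoundedUnder (· ≥ ·) (𝓝[>] (0 : ℝ)) fun h => w h / h := ⟨0, by
    rw [eventually_map]
    exact (nm_ang_bd hw).mono fun h hh => hh.1⟩
  have bdx : IsBoundedUnder (· ≤ ·) atTop (nmAngX w) := ⟨1, by
    rw [eventually_map]
    exact (nm_ang_X_bd hw).mono fun h hh => hh.2⟩
  have bdx' : IsBoundedUnder (· ≥ ·) atTop (nmAngX w) := ⟨0, by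
    rw [eventually_map]
    exact (nm_ang_X_bd hw).mono fun h hh => hh.1⟩
  refine le_antisymm ?_ ?_
  · refine le_of_forall_pos_le_add fun ε hε => ?_
    have e1 : ∀ᶠ n in atTop, nmAngX w n < limsup (nmAngX w) atTop + ε / 2 := eventually_lt_of_limsup_lt (by linarith) bdx
    obtain ⟨N1, hN1⟩ := eventually_atTop.1 e1
    obtain ⟨N2, hN2⟩ := exists_nat_one_div_lt (show (0 : ℝ) < ε / 2 by positivity)
    refine limsup_le_of_le bdh'.isCoboundedUnder_le ?_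
    filter_upwards [nm_ang_sand hw (max N1 N2)] with h hh
    obtain ⟨n, hn, -, hi⟩ := hh
    have e3 : 1 / ((n : ℝ) + 1) < ε / 2 := by
      refine lt_of_le_of_lt ?_ hN2
      have : (N2 : ℝ) ≤ n := by exact_mod_cast (le_max_right N1 N2).trans hn
      exact one_div_le_one_div_of_le (by positivity) (by linarith)
    have := hN1 n ((le_max_left _ _).trans hn)
    linarith
  · refine le_of_forall_pos_le_add fun ε hε => ?_
    have e1 : ∀ᶠ h in 𝓝[>] (0 : ℝ), w h / h < limsup (fun h => w h / h) (𝓝[>] 0) + ε := eventually_lt_of_limsup_lt (by linarith) bdh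
    refine limsup_le_of_le bdx'.isCoboundedUnder_le ?_
    filter_upwards [nm_ang_seq_tendsto0.eventually e1] with n hn
    rw [nm_ang_X_eq]
    exact hn.le

end Claimed.Agent.R256
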