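import Mathlib

/-!
# Row 256 (S0496), unit NM, block TRA (abstract trace lemmas Y2, Y3; Mathlib only): KIT      (helper91; prefix `nm_tra_`)

`NmTraHyp U a0 a1 v0 v1 C` = the four hypotheses of `nm_tr_ang`, `nm_tr_ng` (`Nm/Contract.lean`).   Values, monotonicity in `a`, joint continuity of `(a, v) ↦ U (v + s) a v`, cut-off functions are measurable,
Fubini for null sets (both slicings), Borel-Cantelli for summable integrals.   No `sorry`.
-/

set_option autoImplicit false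

namespace Claimed.Agent.R256

open MeasureTheory Filter Topology
open scoped ENNReal

/-- the hypotheses of the abstract trace lemmas (ang), (ng) on the box `a ∈ (a0,a1)`, `v0 < v ≤ x < v1` -/
structure NmTraHyp (U : ℝ → ℝ → ℝ → ℝ) (a0 a1 v0 v1 C : ℝ) : Prop where
  h0 : ∀ a ∈ Set.Ioo a0 a1, ∀ v ∈ Set.Ioo v0 v1, U v a v = 0
  h1 : ∀ a ∈ Set.Ioo a0 a1, ∀ v ∈ Set.Ioo v0 v1, ∀ x x', v ≤ x → x ≤ x' → x' < v1 → 0 ≤ U x' a v - U x a v ∧ U x' a v - U x a v ≤ x' - x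
  h2 : ∀ a ∈ Set.Ioo a0 a1, ∀ a' ∈ Set.Ioo a0 a1, ∀ v ∈ Set.Ioo v0 v1, ∀ v' ∈ Set.Ioo v0 v1, ∀ x x', a ≤ a' → v ≤ v' → v' ≤ x → x ≤ x' → x' < v1 →
      U x' a' v' - U x a' v' ≤ U x' a v - U x a v
  h3 : ∀ a ∈ Set.Ioo a0 a1, ∀ a' ∈ Set.Ioo a0 a1, ∀ v ∈ Set.Ioo v0 v1, ∀ v' ∈ Set.Ioo v0 v1, ∀ x, |U x a v - U x a' v'| ≤ C * (|a - a'| + |v - v'|)

variable {U : ℝ → ℝ → ℝ → ℝ} {a0 a1 v0 v1 C : ℝ}

/-- the domain of `(a, v) ↦ U (v + s) a v` -/
def nmTraD (a0 a1 v0 v1 s : ℝ) : Set (ℝ × ℝ) := {z | a0 < z.1 ∧ z.1 < a1 ∧ v0 < z.2 ∧ z.2 + s < v1}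

theorem nm_tra_D_open (a0 a1 v0 v1 s : ℝ) : IsOpen (nmTraD a0 a1 v0 v1 s) := by
  unfold nmTraD
  refine IsOpen.inter (isOpen_lt continuous_const continuous_fst) (IsOpen.inter (isOpen_lt continuous_fst continuous_const)
    (IsOpen.inter (isOpen_lt continuous_const continuous_snd) (isOpen_lt (continuous_snd.add continuous_const) continuous_const)))

/-- values: `0 ≤ U (v + s) a v ≤ s` -/
theorem nm_tra_val (H : NmTraHyp U a0 a1 v0 v1 C) {a v s : ℝ} (ha : a ∈ Set.Ioo a0 a1) (hv : v ∈ Set.Ioo v0 v1) (hs : 0 ≤ s) (hs1 : v + s < v1) :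
    0 ≤ U (v + s) a v ∧ U (v + s) a v ≤ s := by
  have := H.h1 a ha v hv v (v + s) le_rfl (by linarith) hs1
  rw [H.h0 a ha v hv] at this
  constructor <;> linarith [this.1, this.2]

/-- `U (v + s) a v` decreases in `a` -/
theorem nm_tra_anti (H : NmTraHyp U a0 a1 v0 v1 C) {a a' v s : ℝ} (ha : a ∈ Set.Ioo a0 a1) (ha' : a' ∈ Set.Ioo a0 a1) (haa : a ≤ a') (hv : v ∈ Set.Ioo v0 v1)
    (hs : 0 ≤ s) (hs1 : v + s < v1) : U (v + s) a' v ≤ U (v + s) a v := by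
  have := H.h2 a ha a' ha' v hv v hv v (v + s) haa le_rfl le_rfl (by linarith) hs1
  rw [H.h0 a ha v hv, H.h0 a' ha' v hv] at this
  linarith

/-- joint continuity of `(a, v) ↦ U (v + s) a v` -/
theorem nm_tra_cont (H : NmTraHyp U a0 a1 v0 v1 C) {s : ℝ} (hs : 0 < s) :
    ContinuousOn (fun z : ℝ × ℝ => U (z.2 + s) z.1 z.2) (nmTraD a0 a1 v0 v1 s) := by
  intro z0 hz0
  rw [Metric.continuousWithinAt_iff]
  intro ε hε
  have hden : 0 < 2 * |C| + 2 := by positivity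
  refine ⟨min s (ε / (2 * |C| + 2)), lt_min hs (div_pos hε hden), ?_⟩
  intro z hz hd
  obtain ⟨z1, z2, z3, z4⟩ := hz
  obtain ⟨w1, w2, w3, w4⟩ := hz0
  have hd1 : |z.1 - z0.1| < min s (ε / (2 * |C| + 2)) := lt_of_le_of_lt (by
    have := (Prod.dist_eq (x := z) (y := z0)) ▸ le_max_left (dist z.1 z0.1) (dist z.2 z0.2)
    rwa [Real.dist_eq] at this) hd
  have hd2 : |z.2 - z0.2| < min s (ε / (2 * |C| + 2)) := lt_of_le_of_lt (by
    have := (Prod.dist_eq (x := z) (y := z0)) ▸ le_max_right (dist z.1 z0.1) (dist z.2 z0.2)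
    rwa [Real.dist_eq] at this) hd
  set δ := min s (ε / (2 * |C| + 2)) with hδ
  have hδs : δ ≤ s := min_le_left _ _
  have hδε : δ * (2 * |C| + 2) ≤ ε := by
    have : δ ≤ ε / (2 * |C| + 2) := min_le_right _ _
    rwa [le_div_iff₀ hden] at this
  have hzv : z.2 ∈ Set.Ioo v0 v1 := ⟨z3, by linarith⟩
  have hwv : z0.2 ∈ Set.Ioo v0 v1 := ⟨w3, by linarith⟩
  have t1 := H.h3 z.1 ⟨z1, z2⟩ z0.1 ⟨w1, w2⟩ z.2 hzv z0.2 hwv (z.2 + s)
  have t1' : |U (z.2 + s) z.1 z.2 - U (z.2 + s) z0.1 z0.2| ≤ |C| * (2 * δ) := by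
    refine t1.trans ?_
    have e1 : C * (|z.1 - z0.1| + |z.2 - z0.2|) ≤ |C| * (|z.1 - z0.1| + |z.2 - z0.2|) :=
      mul_le_mul_of_nonneg_right (le_abs_self C) (by positivity)
    refine e1.trans (mul_le_mul_of_nonneg_left (by linarith) (abs_nonneg C))
  have hab := abs_lt.1 hd2
  have t2 : |U (z.2 + s) z0.1 z0.2 - U (z0.2 + s) z0.1 z0.2| ≤ δ := by
    rcases le_total z.2 z0.2 with h | h
    · have := H.h1 z0.1 ⟨w1, w2⟩ z0.2 hwv (z.2 + s) (z0.2 + s) (by linarith [hab.1]) (by linarith) w4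
      rw [abs_le]
      constructor <;> linarith [this.1, this.2, hab.1, hab.2]
    · have := H.h1 z0.1 ⟨w1, w2⟩ z0.2 hwv (z0.2 + s) (z.2 + s) (by linarith) (by linarith) z4
      rw [abs_le]
      constructor <;> linarith [this.1, this.2, hab.1, hab.2]
  rw [Real.dist_eq]
  have hδ0 : 0 < δ := lt_min hs (div_pos hε hden)
  calc |U (z.2 + s) z.1 z.2 - U (z0.2 + s) z0.1 z0.2|
      ≤ |U (z.2 + s) z.1 z.2 - U (z.2 + s) z0.1 z0.2| + |U (z.2 + s) z0.1 z0.2 - U (z0.2 + s) z0.1 z0.2| := abs_sub_le _ _ _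
    _ ≤ |C| * (2 * δ) + δ := add_le_add t1' t2
    _ < δ * (2 * |C| + 2) := by nlinarith
    _ ≤ ε := hδε

/-- a function which is continuous on an open set, cut off outside, is measurable -/
theorem nm_tra_ind_meas {f : ℝ × ℝ → ℝ} {O : Set (ℝ × ℝ)} (hO : IsOpen O) (hf : ContinuousOn f O) : Measurable (O.indicator f) := by
  classical
  have := ContinuousOn.measurable_piecewise (f := f) (g := (0 : ℝ × ℝ → ℝ)) (s := O) hf continuousOn_const hO.measurableSet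
  rwa [Set.piecewise_eq_indicator] at this

/-- Fubini for null sets, slices with fixed SECOND coordinate -/
theorem nm_tra_fubini_snd {S : Set (ℝ × ℝ)} (hS : MeasurableSet S) (h : ∀ v : ℝ, ∀ᵐ a : ℝ, (a, v) ∈ S) : ∀ᵐ z : ℝ × ℝ, z ∈ S := by
  have hS' : MeasurableSet (Prod.swap ⁻¹' S) := measurable_swap hS
  have h1 : ∀ᵐ z : ℝ × ℝ, z ∈ Prod.swap ⁻¹' S := by
    refine (Measure.ae_prod_mem_iff_ae_ae_mem hS').2 (Eventually.of_forall fun v => ?_)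
    exact h v
  have h2 := (Measure.measurePreserving_swap (μ := (volume : Measure ℝ)) (ν := (volume : Measure ℝ))).quasiMeasurePreserving.ae h1
  filter_upwards [h2] with z hz
  simpa using hz

/-- Fubini for null sets, slices with fixed FIRST coordinate -/
theorem nm_tra_fubini_fst {S : Set (ℝ × ℝ)} (hS : MeasurableSet S) (h : ∀ a : ℝ, ∀ᵐ v : ℝ, (a, v) ∈ S) : ∀ᵐ z : ℝ × ℝ, z ∈ S :=
  (Measure.ae_prod_mem_iff_ae_ae_mem hS).2 (Eventually.of_forall h)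

/-- Borel-Cantelli in the form: summable integrals give a.e. convergence to `0` -/
theorem nm_tra_bc {α : Type*} [MeasurableSpace α] (μ : Measure α) (f : ℕ → α → ℝ) (hf : ∀ n, Measurable (f n)) (h0 : ∀ n x, 0 ≤ f n x)
    (c : ℕ → ℝ≥0∞) (hc : ∑' n, c n ≠ ⊤) (hint : ∀ n, ∫⁻ x, ENNReal.ofReal (f n x) ∂μ ≤ c n) :
    ∀ᵐ x ∂μ, Tendsto (fun n => f n x) atTop (𝓝 0) := by
  have h1 : ∫⁻ x, ∑' n, ENNReal.ofReal (f n x) ∂μ ≠ ⊤ := by
    rw [lintegral_tsum fun n => (hf n).ennreal_ofReal.aemeasurable]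
    exact ne_top_of_le_ne_top hc (ENNReal.tsum_le_tsum hint)
  have h2 := ae_lt_top (Measurable.tsum fun n => (hf n).ennreal_ofReal) h1
  filter_upwards [h2] with x hx
  have h3 := ENNReal.tendsto_atTop_zero_of_tsum_ne_top hx.ne
  have h4 := (ENNReal.tendsto_toReal ENNReal.zero_ne_top).comp h3
  simpa [Function.comp_def, ENNReal.toReal_ofReal (h0 _ _)] using h4

end Claimed.Agent.R256
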